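import Crest.Agent.X212.Geo28.Lv
import Crest.Agent.X212.Lab9.Main
import Crest.Agent.X212.Mv17.Gl

/-!
# Row 212, layer GEO (helper5): the sphere, positive charts and cylinders

* `s3Stmt` : the sphere has one class;
* `ori_o4`, `exists_box` : positive charts;
* `cy`, `cylStmt` : cylinders.
-/

set_option autoImplicit false
set_option linter.unusedSectionVars false

open Set Filter Topology Function Module
open scoped ContDiff Manifold
open Crest.Agent.R208 Crest.Agent.R208.F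
open Crest.Agent.X212.Dr59 (Cs Cl Ex HZ Lat ip pm df)
open Crest.Agent.X212.Int54 (Ori)
open Crest.Agent.X212.Orx52 (Pos pr oR oriOn ori_pr ori_oR)
open Crest.Agent.X212.Rod53 (E4)
open Crest.Agent.X212.Cyl58 (IsOE isOE_add)
open Crest.Agent.X212.Lab56 (Cls Pic0)
open Crest.Agent.X212.M (Mf)

noncomputable section

namespace Crest.Agent.X212.Nv5

open Bor5.T Geo28

/-- **GEO-S3** -/
theorem s3Stmt : S3Stmt := fun A s hi => by
  let φ := (IsOE.mk hi s.ld).diffeo s.surj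
  have p : Pic0 (IY A.toO3) (univ : Set (A.Y.M × ℝ)) (univ ×ˢ {0}) :=
    Lab9.pStmt.s3.comp (f := fun y : A.Y.M × ℝ => φ.symm y.1) (g := fun x => (φ x, 0)) (W' := univ ×ˢ {0})
      (fun y _ => (φ.symm.contMDiff _).comp y contMDiffAt_fst) (mapsTo_univ _ _)
      (fun x _ => (φ.contMDiff x).prodMk contMDiffAt_const) (mapsTo_univ _ _)
      fun y hy => Prod.ext (φ.apply_symm_apply _) hy.2.symm
  have q := p.dfm (univ_prod_univ ▸ Lab56.dfm_cyl univ ordConnected_univ (mem_univ 0) rfl) isOpen_univ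
    subset_rfl
  exact ⟨by rintro ⟨a⟩ ⟨b⟩; exact Quot.sound (q.eqv subset_rfl a.ok b.ok)⟩

/-! ### positive charts -/

theorem df_lin (L : E4 →L[ℝ] ℝ) (y : E4) : df (𝓡 4) L y = io (L : E4 →ₗ[ℝ] ℝ) := by
  rw [df, Dr59.mf_eq_fderiv, ContinuousLinearMap.fderiv]

theorem df_pr (i : Fin 4) (y : E4) :
    df (𝓡 4) (fun y : E4 => y i) y = io (EuclideanSpace.proj (𝕜 := ℝ) i : E4 →ₗ[ℝ] ℝ) :=
  df_lin (EuclideanSpace.proj i) y

theorem sm_pr (i : Fin 4) : ContMDiff (𝓡 4) 𝓘(ℝ, ℝ) ∞ fun y : E4 => y i :=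
  (EuclideanSpace.proj (𝕜 := ℝ) i).contDiff.contMDiff

theorem ori_o4 : Ori (𝓡 4) o4 :=
  ⟨fun y => (((Dr59.smAt_df (sm_pr 0 y)).mul (Dr59.smAt_df (sm_pr 1 y))).mul
    (Dr59.smAt_df (sm_pr 2 y))).mul (Dr59.smAt_df (sm_pr 3 y)), fun y =>
    Orx52.tp_ne_of_evA (n := 4) (by simp) (fun i => EuclideanSpace.single i 1) (by
      simp only [o4, Pi.mul_apply, df_pr, mul_assoc, evA_io_mul, evA_io, Fin.sum_univ_succ]
      simp [Fin.succAbove])⟩

/-- the reflection of the first coordinate -/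
def rf4 : E4 ≃L[ℝ] E4 := (LinearIsometryEquiv.piLpCongrRight 2 fun i : Fin 4 =>
  if i = 0 then LinearIsometryEquiv.neg ℝ else LinearIsometryEquiv.refl ℝ ℝ).toContinuousLinearEquiv

theorem pm_rf4 : pm (𝓡 4) (𝓡 4) rf4 o4 = -o4 := by
  have k : ∀ i y, pm (𝓡 4) (𝓡 4) rf4 (df (𝓡 4) fun y : E4 => y i) y =
      io ((EuclideanSpace.proj (𝕜 := ℝ) i ∘L (rf4 : E4 →L[ℝ] E4) : E4 →L[ℝ] ℝ) : E4 →ₗ[ℝ] ℝ) := fun i y =>
    (Dr59.pm_df rf4.differentiableAt.mdifferentiableAt ((sm_pr i _).mdifferentiableAt (by simp))).trans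
      (df_lin (EuclideanSpace.proj (𝕜 := ℝ) i ∘L (rf4 : E4 →L[ℝ] E4)) y)
  have e : ∀ i : Fin 4, ((EuclideanSpace.proj (𝕜 := ℝ) i ∘L (rf4 : E4 →L[ℝ] E4) : E4 →L[ℝ] ℝ) :
      E4 →ₗ[ℝ] ℝ) = (if i = 0 then -1 else 1 : ℝ) • (EuclideanSpace.proj (𝕜 := ℝ) i : E4 →ₗ[ℝ] ℝ) :=
    fun i => LinearMap.ext fun y => by by_cases h : i = 0 <;> simp [rf4, h]
  funext y
  simp only [o4, Dr59.pm_mul, Pi.mul_apply, Pi.neg_apply, k, e, df_pr]
  simp

theorem oe_ball (c : E4) {r : ℝ} (hr : 0 < r) :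
    IsOE (𝓡 4) (𝓡 4) (OpenPartialHomeomorph.univBall c r) :=
  IsOE.of_pd (Glue52.pdOf (OpenPartialHomeomorph.univBall c r)
    OpenPartialHomeomorph.contDiff_univBall.contMDiff.contMDiffOn (by
      rw [OpenPartialHomeomorph.univBall_target c hr]
      exact OpenPartialHomeomorph.contDiffOn_univBall_symm.contMDiffOn)) IsOE.id
    fun _ => (OpenPartialHomeomorph.univBall_source c r).ge (mem_univ _)

theorem oe_unit : IsOE (𝓡 4) (𝓡 4) (OpenPartialHomeomorph.univUnitBall : E4 → E4) :=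
  IsOE.of_pd (Glue52.pdOf OpenPartialHomeomorph.univUnitBall
    OpenPartialHomeomorph.contDiff_univUnitBall.contMDiff.contMDiffOn
    OpenPartialHomeomorph.contDiffOn_univUnitBall_symm.contMDiffOn) IsOE.id fun y => mem_univ y

/-- **a positive chart in every neighbourhood** -/
theorem exists_box (X : M4) {x : X.M} {U : Set X.M} (hU : U ∈ 𝓝 x) : ∃ f : E4 → X.M,
    IsOE (𝓡 4) X.I f ∧ Pos (𝓡 4) X.I f univ o4 X.o ∧ ∀ y, f y ∈ U := by
  let e := Glue52.chL X.I (Glue52.linE 4 X.X.E X.X.dim) x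
  have h0 : x ∈ e.source := Glue52.mem_chL _ x
  have c : ContinuousAt e.symm (e x) :=
    e.symm.contMDiffOn.continuousOn.continuousAt (e.open_target.mem_nhds (e.map_source h0))
  obtain ⟨r, hr, hb⟩ := Metric.mem_nhds_iff.1 (inter_mem (e.open_target.mem_nhds (e.map_source h0))
    (c.preimage_mem_nhds (by rwa [show e.symm (e x) = x from e.left_inv h0])))
  have m : ∀ y, OpenPartialHomeomorph.univBall (e x) r y ∈ Metric.ball (e x) r := fun y =>
    (OpenPartialHomeomorph.univBall_target (e x) hr).le (OpenPartialHomeomorph.map_source _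
      ((OpenPartialHomeomorph.univBall_source (e x) r).ge (mem_univ _)))
  have f := IsOE.of_pd e.symm (oe_ball (e x) hr) fun y => (hb (m y)).1
  have ρ := IsOE.of_diffeo rf4.toDiffeomorph
  rcases Orx52.pos_or isPreconnected_univ (oriOn ori_o4 univ) (oriOn X.ori univ) (fun y _ => f.loc y)
    (mapsTo_univ _ _) with h | h
  · exact ⟨_, f, h, fun y => (hb (m y)).2⟩
  · refine ⟨_, f.comp ρ, (Orx52.pos_neg_left.2 h).comp (Orx52.pos_of_eq (oriOn ori_o4 univ) (c := fun _ => 1)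
      (fun _ _ => one_pos) fun y _ => ?_) (fun y _ => f.loc y) (fun y _ => ρ.loc y) (mapsTo_univ _ _),
      fun y => (hb (m _)).2⟩
    rw [Dr59.pm_neg, one_smul]
    exact (congrArg (fun a : E4 → Ext E4 => (-a) y) pm_rf4).trans (by rw [neg_neg])

/-! ### cylinders -/

/-- the manifold -/
abbrev cyM (A : O3) : M4 :=
  ⟨Mf.ofB 4 (IY A) (A.Y.M × ℝ) (by rw [finrank_prod, A.Y.dim, finrank_self]), pr A.o oR, ori_pr A.ori ori_oR⟩

theorem oe_sh (A : O3) (c : ℝ) : IsOE (IY A) (IY A) (Prod.map (id : A.Y.M → A.Y.M) fun t : ℝ => t + c) :=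
  IsOE.id.prodMap (isOE_add c)

theorem pos_sh (A : O3) (c : ℝ) :
    Pos (IY A) (IY A) (Prod.map id fun t : ℝ => t + c) univ (pr A.o oR) (pr A.o oR) :=
  ((Orx52.pos_id.2 (oriOn A.ori univ).same).prodMap (Orx52.pos_of_eq (oriOn ori_oR univ) (c := fun _ => 1)
    (fun _ _ => one_pos) fun t _ => by
      rw [Orx52.pm_oR ((isOE_add c).contMDiff.mdifferentiableAt (by simp)), one_smul]
      exact (Dr59.df_add (f := id) (g := fun _ => c) contMDiffAt_id contMDiffAt_const).trans (by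
        rw [Dr59.df_eq_zero (c := c) EventuallyEq.rfl, add_zero]; rfl))
    (fun y _ => Cyl58.ld_id y) fun t _ => (isOE_add c).loc t).mono fun _ _ => ⟨trivial, trivial⟩

/-- a translated chart -/
def cyN (A : O3) (c : ℝ) {J : Set ℝ} (hJ : IsOpen J) : Nc A (cyM A) J where
  k :=
    { toFun := Prod.map id fun t => t + c
      invFun := Prod.map id fun t => t + -c
      source := univ ×ˢ J
      target := (fun p => p.2 + -c) ⁻¹' J
      map_source' := fun p hp => by simpa using hp.2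
      map_target' := fun p hp => ⟨trivial, hp⟩
      left_inv' := fun p _ => by simp [Prod.map]
      right_inv' := fun p _ => by simp [Prod.map]
      open_source := isOpen_univ.prod hJ
      open_target := hJ.preimage (by fun_prop)
      contMDiffOn_toFun := (oe_sh A c).contMDiff.contMDiffOn
      contMDiffOn_invFun := (oe_sh A (-c)).contMDiff.contMDiffOn }
  tm p := p.2 + -c
  cont := by fun_prop
  src := rfl
  tgt := rfl
  tmk x _ := add_neg_cancel_right _ _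
  pos := (pos_sh A c).mono (subset_univ _)

/-- the cylinder with boxes -/
def cy (A : O3) (n : ℕ) (f : Fin n → E4 → A.Y.M × ℝ) (hf : ∀ j, IsOE (𝓡 4) (IY A) (f j))
    (h : ∀ j y, (f j y).2 ∈ Icc (-2 : ℝ) 2) : Pm (some A) (some A) none where
  X := cyM A
  ki := cyN A (-2) isOpen_Iio
  ko := cyN A 2 isOpen_Ioi
  k3 := ()
  io p (hp : p.2 + - -2 < 0) := show p.2 + -2 ≤ 0 by linarith
  i3 _ _ := le_rfl
  o3 _ _ := le_rfl
  cpt T := (isCompact_univ.prod (isCompact_Icc (a := -T - 2) (b := T + 2))).of_isClosed_subset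
    ((isClosed_le continuous_const (cyN A (-2) isOpen_Iio).cont).inter
      ((isClosed_le (cyN A 2 isOpen_Ioi).cont continuous_const).inter (isClosed_const (p := (0 : ℝ) ≤ T))))
    fun p ⟨(h1 : -T ≤ p.2 + - -2), (h2 : p.2 + -2 ≤ T), _⟩ => ⟨trivial, by linarith, by linarith⟩
  nb := n
  bx j := ((hf j).comp oe_unit).pd
  src _ := rfl
  core j y := ⟨show 0 ≤ (f j _).2 + - -2 by linarith [(h j (OpenPartialHomeomorph.univUnitBall y)).1],
    show (f j _).2 + -2 ≤ 0 by linarith [(h j (OpenPartialHomeomorph.univUnitBall y)).2], le_rfl⟩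

theorem cy_isCyl (A : O3) (n : ℕ) (f hf h) : (cy A n f hf h).IsCyl :=
  have p : Pos (IY A) (IY A) id univ (pr A.o oR) (pr A.o oR) :=
    Orx52.pos_id.2 (oriOn (ori_pr A.ori ori_oR) univ).same
  ⟨Diffeomorph.refl (IY A) (A.Y.M × ℝ) _, p,
    fun _ _ _ => Prod.ext rfl (sub_eq_add_neg _ _), fun _ _ _ => rfl⟩

theorem hz_cyl {A : O3} {X : M4} (φ : (A.Y.M × ℝ) ≃ₘ^∞⟮IY A, X.I⟯ X.M) {k : ℕ}
    (h : HZ A.Y.I k (univ : Set A.Y.M)) : HZ X.I k (univ : Set X.M) := by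
  rw [← (show Surjective φ from φ.surjective).range_eq, ← image_univ,
    Dr59.hz_oe φ.isLocalDiffeomorph φ.injective isOpen_univ, ← univ_prod_univ]
  exact h.prod_convex isOpen_univ isOpen_univ convex_univ

theorem cl_iff {A : O3} {X : M4} (φ : (A.Y.M × ℝ) ≃ₘ^∞⟮IY A, X.I⟯ X.M) {J : Set ℝ} (k : Nc A X J)
    (hJ : IsOpen J) (hc : J.OrdConnected) {l : Filter ℝ} (hl : Rfl19.Nd l) (hf : Mv17.Fat l) (h : J ∈ l)
    (a : Ag l k.k φ) (d : X.L) (s : Cls (IY A) (univ : Set (A.Y.M × ℝ))) : k.Cl d s ↔ Pb φ univ d s := by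
  have e : (univ ×ˢ J : Set (A.Y.M × ℝ)) = Prod.snd ⁻¹' J := univ_prod
  unfold Nc.Cl
  rw [e]
  exact ⟨fun x => Mv17.pb_ag (J := univ) hl hf (Rfl19.ag_symm hl a) isOpen_univ ordConnected_univ univ_mem h
      (fun z _ => φ.isLocalDiffeomorph z) x,
    fun x => Mv17.pb_ag (J' := univ) hl hf a hJ hc h univ_mem
      (fun z hz => Rod53.ld_pd k.k (k.src.ge (e.ge hz))) x⟩

/-- **GEO-CYL** -/
theorem cylStmt : CylStmt where
  ex A n := by
    obtain ⟨y⟩ : Nonempty A.Y.M := inferInstance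
    obtain ⟨f, h1, h2, h3⟩ := exists_box (cyM A) (x := (y, 0)) (U := Prod.snd ⁻¹' Icc (-2) 2)
      (continuous_snd.continuousAt.preimage_mem_nhds (Icc_mem_nhds (by norm_num) (by norm_num)))
    exact ⟨cy A n (fun _ => f) (fun _ => h1) fun _ => h3, cy_isCyl _ _ _ _ _, rfl, fun _ => ⟨f, h1, h2,
      fun y => ⟨show 0 ≤ (f y).2 + - -2 by linarith [(h3 y).1], show (f y).2 + -2 ≤ 0 by linarith [(h3 y).2],
        le_rfl⟩, fun _ => rfl⟩⟩
  top A C := fun ⟨φ, _⟩ => by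
    have h := hz_cyl φ A.h2
    have l : Lat C.X.I C.X.o univ ∅ (Fin.elim0 : Fin 0 → C.X.Fm) (Matrix.diagonal Fin.elim0) :=
      .empty C.X.ori isOpen_univ (empty_subset _) h
    refine ⟨hz_cyl φ A.h1, ⟨0, _, _, _, l, by simp⟩, fun d => ⟨0, _, _, _, 0, l, .zero, ?_, ?_⟩⟩
    · obtain ⟨c, hc⟩ := Nvg56.exists_cur d
      exact Mv17.cur_of_ex hc .zero (h _ (Dr59.Cl.zero.sub (Nvg56.cur_cl hc)))
    · simp [M4.ip, (Cs.zero (I := C.X.I) (k := 2) (K := univ)).ip_zero (o := C.X.o) (c := 0) fun _ _ => rfl]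
  cl A C := fun ⟨φ, _, h1, h2⟩ => by
    have a := cl_iff φ C.ki isOpen_Iio ordConnected_Iio Rfl19.nd_bot Mv17.fat_bot (Iio_mem_atBot 0)
      ⟨-2, (eventually_lt_atBot 0).mono fun t ht y => (h1 y t ht).symm⟩
    have b := cl_iff φ C.ko isOpen_Ioi ordConnected_Ioi Rfl19.nd_top Mv17.fat_top (Ioi_mem_atTop 0)
      ⟨2, (eventually_gt_atTop 0).mono fun t ht y => (h2 y t ht).symm⟩
    refine ⟨fun (s : Cls (IY A) (univ : Set (A.Y.M × ℝ))) => ?_, fun d s => (a d s).trans (b d s).symm⟩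
    have p := Rfl19.pb_pull (d := s) fun y _ => φ.symm.isLocalDiffeomorph y
    exact ⟨_, (a _ s).2 (Rfl19.pb_symm (φ := φ.symm) p), fun d hd =>
      Rfl19.pb_unique (Rfl19.pb_symm ((a d s).1 hd)) p⟩

end Crest.Agent.X212.Nv5
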