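import Crest.Agent.X212.Nv5.Stm

/-!
# Row 212, layer S (helper5): the data of `Pent` as a neck and a cap
-/

set_option autoImplicit false

open Set Function
open Crest.Agent.X212.Bor5.T

noncomputable section

namespace Crest.Agent.X212.Nv5

theorem pre_left {X : Type*} [TopologicalSpace X] [PreconnectedSpace X] {U V : Set X} (hU : IsOpen U)
    (hV : IsOpen V) (c : ∀ x, x ∈ U ∨ x ∈ V) (h : IsPreconnected (U ∩ V)) : IsPreconnected U := by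
  have k : ∀ P Q : Set X, IsOpen P → IsOpen Q → U ⊆ P ∪ Q → (U ∩ P).Nonempty → (U ∩ Q).Nonempty →
      U ∩ V ⊆ P → (U ∩ (P ∩ Q)).Nonempty := fun P Q hP hQ s ⟨a, ha⟩ ⟨b, hb⟩ e => by
    obtain ⟨x, -, hx, hx'⟩ := isPreconnected_univ _ _ ((hU.inter hP).union hV) (hU.inter hQ)
      (fun x _ => (c x).elim (fun k => (s k).elim (fun l => .inl (.inl ⟨k, l⟩)) fun l => .inr ⟨k, l⟩)
        fun k => .inl (.inr k)) ⟨a, trivial, .inl ha⟩ ⟨b, trivial, hb⟩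
    exact ⟨x, hx'.1, hx.elim (·.2) fun k => e ⟨hx'.1, k⟩, hx'.2⟩
  intro P Q hP hQ s a b
  by_contra n
  rcases h.subset_or_subset (hU.inter hP) (hU.inter hQ) (disjoint_left.2 fun x l r => n ⟨x, l.1, l.2, r.2⟩)
    (fun x hx => (s hx.1).imp (⟨hx.1, ·⟩) (⟨hx.1, ·⟩)) with e | e
  · exact n (k P Q hP hQ s a b fun x hx => (e hx).2)
  · exact n (inter_comm P Q ▸ k Q P hQ hP (union_comm P Q ▸ s) b a fun x hx => (e hx).2)

variable {S : Scene} {Q : Prd} {R : ℝ} (P : Pent S Q R)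

theorem neck : IsPreconnected (P.W.X.τ ⁻¹' Ioo P.α P.β) := by
  rw [← P.k.tgt, ← P.k.φ.toPartialEquiv.image_source_eq_target]
  refine IsPreconnected.image ?_ _ P.k.φ.contMDiffOn_toFun.continuousOn
  rw [P.k.src]
  have := P.Y.con
  exact (show (P.Y.cyl.τ ⁻¹' Ioo P.α P.β : Set (P.Y.Y.M × ℝ)) = univ ×ˢ Ioo P.α P.β from
    Set.ext fun _ => ⟨fun h => ⟨trivial, h⟩, fun h => h.2⟩) ▸ isPreconnected_univ.prod isPreconnected_Ioo

/-- the neck -/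
def nk : Nk P.Y :=
  ⟨P.W, P.cpt, P.α, P.β, P.lt, P.h2, P.k, P.pk, P.w, P.cl, P.sy, P.vL, P.vR, P.cL, P.cR, P.pL, P.pR,
    have := P.W.con
    pre_left (V := P.W.X.τ ⁻¹' Ioi P.α) (isOpen_Iio.preimage P.W.X.cont) (isOpen_Ioi.preimage P.W.X.cont)
      (fun x => (lt_or_ge (P.W.X.τ x) P.β).imp id P.lt.trans_le) (by
        rw [← preimage_inter, inter_comm, Ioi_inter_Iio]; exact neck P), P.ext⟩

/-- the zero filling -/
def fo : Fo P.τ P.Y (1, 0) := P.ea ▸ P.f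

/-- the cap is the left part followed by the word `a | b` -/
theorem jc : ∃ J : Jc (fo P) (nk P) isC.loc (S.cap P.C).toW4, HEq J.l P.l ∧ HEq J.r P.r := by
  obtain ⟨W, _, d, c₀, cv, τ, a, b, e, t3, Y, i, j, f, g, h, G, hd, α, β, lt, k, pk, vL, vR, cL, cR, bL, bR, η₁, q, seg,
    C, v, hv, x, hx, v1, l, r, pl, pr, ov, ko, η, rfl, rfl, rfl, cN, ϑ, gd, li, lj, rfl, rfl, _⟩ := P
  exact ⟨⟨l, r, pl, pr, ov⟩, HEq.rfl, HEq.rfl⟩

end Crest.Agent.X212.Nv5
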