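import Crest.Agent.X212.Nv5.ChB
import Crest.Agent.X212.Cut19.Stm

/-!
# Row 212, layer GEO (helper5): degrees on the spheres of the plumbing

* `mS s` : the characters of the dual forms, `dg s k` : the degree of the orders `k`;  `ip_E`, `deg`;
* `chrStmt : Cut19.ChrStmt`.
-/

set_option autoImplicit false
set_option linter.unusedSectionVars false

open Set Filter Topology Function Metric
open scoped ContDiff Manifold Real
open Crest.Agent.R208.F (Ext)
open Crest.Agent.X212.Lab56 Crest.Agent.X212.Line51 Crest.Agent.X212.Dr59 Crest.Agent.X212.Orx52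
open Crest.Agent.X212.Rod53 hiding Uni cj sw
open Crest.Agent.X212.Cut19

noncomputable section

namespace Crest.Agent.X212.Nv5.Ch

/-- the characters of the dual forms -/
def mS (s : Bool) (j : ℤ) : Z2 :=
  cond s (if j < 10 then 0 else if j ≤ 15 then (-1, 1) else if j ≤ 20 then (0, 1) else 0)
    (if j < 0 then 0 else if j ≤ 5 then (0, 1) else if j ≤ 10 then (1, 0) else 0)

/-- the degree -/
def dg (s : Bool) (k : ℤ → ℤ) : ℤ := cond s (k 9 - k 15 - k 20) (k (-1) - k 5 + k 10)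

/-- the neighbourhoods of the spheres -/
abbrev UX (s : Bool) : Set (X torT (wd wN)) := torT.disc (wd wN) (cond s 15 5) (Iio 7)

/-- the dual forms, times `2 π` -/
abbrev WE (s : Bool) (E : X torT (wd wN) → Ext E4) : Prop :=
  WF torT wN (1 / 10) 0 (fun j => rc2 (mS s j)) (fun _ => 0) E

variable {s : Bool} {E F e : X torT (wd wN) → Ext E4} {k : ℤ → ℤ} {η : ℤ → Z2} {U K : Set (X torT (wd wN))}

theorem chs_mS (s : Bool) : Chs wN (fun l => dot (mS s l) (wN l)) (mS s) := fun l => ⟨by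
  cases s <;> simp only [mS, wN, Cut19.sw, cond] <;> split_ifs <;> first | omega | rfl, rfl⟩

theorem dg_mS (s : Bool) : dg s (fun l => dot (mS s l) (wN l)) = -1 := by cases s <;> rfl

theorem exists_E (s : Bool) : ∃ E, WE s E := exists_WF (by norm_num) (xa_zero torT 1) (fun j => by
  have := (chs_mS s (j + 1)).1
  rw [add_sub_cancel_right] at this
  rw [dr_sub, dr_rc2, dr_rc2, this, sub_self]) _

theorem cs_E (h : WE s E) : Cs (𝓡 4) 2 (UX s) E :=
  (h.cs_ov (xa_zero torT 1) (by norm_num) isN (i := cond s 9 (-1)) (j := cond s 21 11)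
    (fun k a => by cases s <;> simp only [mS, cond] at a ⊢ <;> rw [if_pos (by omega)] <;> simp [rc2])
    fun k a => by
      cases s <;> simp only [mS, cond] at a ⊢ <;> rw [if_neg (by omega), if_neg (by omega), if_neg (by omega)] <;>
        simp [rc2]).mono fun p hp => ⟨hp.1, by
    obtain ⟨-, ⟨a1, a2⟩, a3, a4⟩ := hp
    refine (Real.sqrt_lt' (by norm_num)).2 ?_
    cases s <;> simp only [cond] at a1 a2 ⊢ <;> push_cast at a1 a2 <;> nlinarith⟩

theorem op_UX (s : Bool) : IsOpen (UX s) := torT.isOpen_disc isOpen_Iio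

variable [MeasurableSpace E4] [BorelSpace E4] [MeasurableSpace (X torT (wd wN))] [BorelSpace (X torT (wd wN))]
  [SecondCountableTopology (X torT (wd wN))]

theorem ip_E (h : WE s E) (hk : Chs wN k η) (hF : WC torT wN (UX s) F fun j => rc2 (η j)) :
    ip (𝓡 4) (oc isN.loc) F E = (2 * π) ^ 2 * dg s k := by
  rw [← neg_neg (oc isN.loc), ip_neg_ori, hF.ip_eq (oX_spec isN.loc ori_tor).neg
    (pos_id.2 (by simpa using (oriOn ori_oT _).same)) isN (op_UX s) h (cs_E h)
    (S := cond s {9, 15, 20} {-1, 5, 10}) fun l a => congrArg rc2 (by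
      cases s <;> simp only [mS, cond, Finset.mem_insert, Finset.mem_singleton] at a ⊢ <;> split_ifs <;>
        first | omega | rfl), neg_neg]
  congr 1
  cases s
  · simp [dg, ← (hk _).2, det2, rc2, mS, dot, Cut19.sw]
    ring
  · simp [dg, ← (hk _).2, det2, rc2, mS, dot, Cut19.sw]
    ring

theorem ip_EE (h : WE s E) : ip (𝓡 4) (oc isN.loc) E E = -(2 * π) ^ 2 := by
  rw [ip_E h (chs_mS s) (h.wc _), dg_mS]
  simp

/-- **the degree** -/
theorem deg (l : Lat (𝓡 4) (oc isN.loc) (UX s) K (fun _ : Unit => e) (Matrix.diagonal fun _ => -1)) :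
    ∃ ε : ℤ, (ε = 1 ∨ ε = -1) ∧ ∀ F k η, Chs wN k η → WC torT wN (UX s) F (fun j => rc2 (η j)) →
      ip (𝓡 4) (oc isN.loc) F e = 2 * π * (ε * dg s k : ℤ) := by
  obtain ⟨E, h⟩ := exists_E s
  have p : (2 * π : ℝ) ≠ 0 := by positivity
  have k := fun F (c : Cl (𝓡 4) 2 (UX s) F) => (l.diag c (cs_E h)).trans (Fintype.sum_unique _)
  have q := (k E (h.wc _).cl).symm.trans (ip_EE h)
  generalize ip (𝓡 4) (oc isN.loc) E e = a at k q
  rcases sq_eq_sq_iff_eq_or_eq_neg.1 (show a ^ 2 = (2 * π) ^ 2 by linear_combination -q) with rfl | rfl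
  · refine ⟨-1, .inr rfl, fun F _ _ hk hF => mul_right_cancel₀ p ?_⟩
    push_cast
    linear_combination (k F hF.cl) - ip_E h hk hF
  · refine ⟨1, .inl rfl, fun F _ _ hk hF => mul_right_cancel₀ p ?_⟩
    push_cast
    linear_combination ip_E h hk hF - (k F hF.cl)

omit [MeasurableSpace E4] [BorelSpace E4] [MeasurableSpace (X torT (wd wN))] [BorelSpace (X torT (wd wN))]
  [SecondCountableTopology (X torT (wd wN))]

theorem rod_N (s : Bool) : ∃ a b, Rod53.Uni a b ∧ ball (cond s 15 5 : ℝ) 1 ⊆ Jr (wd wN) a := by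
  cases s
  · refine ⟨(1, 1), (0, 1), .inl rfl, Subset.trans ?_ (Ioo_subset_Jr' (i := 4) (j := 5) fun k a b => .inl ?_)⟩
    · rw [Real.ball_eq_Ioo]; norm_num
    · rw [wN, Cut19.sw, if_neg (by omega), if_pos (by omega)]
  · refine ⟨(0, 1), (1, 0), .inr rfl, Subset.trans ?_ (Ioo_subset_Jr' (i := 14) (j := 15) fun k a b => .inl ?_)⟩
    · rw [Real.ball_eq_Ioo]; norm_num
    · rw [wN, Cut19.sw, if_neg (by omega), if_neg (by omega), if_pos (by omega)]

/-- labels on the neighbourhoods of the spheres -/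
theorem lab_UX {ι κ : Type} [Fintype ι] [Fintype κ] [DecidableEq ι] [DecidableEq κ]
    {d : Sc (𝓡 4) (X torT (wd wN)) ι κ} (hd : d.On (UX s)) : ∃ k η, Chs wN k η ∧ RP.Lab d (wm wN k) (UX s) := by
  obtain ⟨a, b, hu, hc⟩ := rod_N s
  obtain ⟨m, σ, i, h⟩ := lab_ov isN.loc hu hc (st_disc (r := 7) (by norm_num)) hd
  obtain ⟨k, η, h1, h2⟩ := tl_disc isN (i := cond s 9 (-1)) (j := cond s 21 11) (by cases s <;> simp)
    (by cases s <;> norm_num) (by cases s <;> norm_num) h
  exact ⟨k, η, h1, σ, i, h2⟩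

theorem odd_dg {ι κ : Type} [Fintype ι] [Fintype κ] [DecidableEq ι] [DecidableEq κ]
    {d : Sc (𝓡 4) (X torT (wd wN)) ι κ} (hd : d.On (UX s)) (h : RP.Lab d (wm wN k) (UX s)) : Odd (dg s k) := by
  have o : ∀ i : ℤ, (i : ℝ) + 1 / 2 ∈ Ioo (cond s 15 5 - 7 : ℝ) (cond s 15 5 + 7) → Odd (k i) := fun i hi =>
    odd_wd isN (op_UX s) hd h (t := i + 1 / 2) ⟨by linarith, by linarith⟩ fun _ o e => (axis_disc o).2 (e ▸ hi)
  cases s
  · exact ((o _ (by norm_num)).sub_odd (o _ (by norm_num))).add_odd (o _ (by norm_num))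
  · exact ((o _ (by norm_num)).sub_odd (o _ (by norm_num))).sub_odd (o _ (by norm_num))

/-- **CUT-CHR** -/
theorem chrStmt : ChrStmt := by
  rintro s e ⟨K, l⟩ D a ha
  obtain ⟨ε, hε, h⟩ := @deg s e K (borel _) (@BorelSpace.mk _ _ (borel _) rfl) (borel _)
    (@BorelSpace.mk _ _ (borel _) rfl) (torT.secondCountable isN.loc) l
  obtain ⟨k, η, h1, h2⟩ := lab_UX D.ok
  obtain ⟨_, _, t⟩ := id h2
  exact ⟨_, Odd.mul (by rcases hε with rfl | rfl <;> decide) (odd_dg D.ok h2),
    h _ k η h1 (wc_line' h1 (op_UX s) ha t)⟩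

end Crest.Agent.X212.Nv5.Ch
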