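import Crest.Agent.X212.Alg43.Tri

/-!
# Row 212, layer S (helper5): the pentagon over a set of triples (ALG-4', after `Alg43.pentStmt`)
-/

set_option autoImplicit false
set_option linter.unusedSectionVars false

open Module Function Filter

noncomputable section

namespace Crest.Agent.X212.Alg43

open Win22 Flo2 WG
open Bor5 (K)

variable {S : Sk} {Z : Cs S} {a b c : S.E} {I J M : Type}

open Classical in
/-- `φ` if `p` holds -/
def ind (p : Prop) (φ : Mx Z a b) : Mx Z a b := if p then φ else 0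

variable {p : Prop} {φ φ' : Mx Z a b} {ψ : Mx Z b c} {F : I → Mx Z a b} {G : J → Mx Z b c}

theorem ind_zero {m i k} (h : φ m i k = 0) : ind p φ m i k = 0 := by
  unfold ind; split_ifs; exacts [h, rfl]

theorem ind_add : ind p (φ + φ') = ind p φ + ind p φ' := by unfold ind; split_ifs <;> simp

theorem mul_ind : mul φ (ind p ψ) = ind p (mul φ ψ) := by
  unfold ind; split_ifs; exacts [rfl, by funext m i k; simp [mul]]

theorem ind_mul : mul (ind p φ) ψ = ind p (mul φ ψ) := by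
  unfold ind; split_ifs; exacts [rfl, by funext m i k; simp [mul]]

theorem Leq.ind (h : Leq (del φ) φ') : Leq (del (ind p φ)) (ind p φ') := by
  rw [del, mul_ind, ind_mul, ← ind_add]
  unfold Alg43.ind; split_ifs; exacts [h, Leq.rfl]

theorem Al.ind (h : Al F) (q : I → Prop) : Al fun i => ind (q i) (F i) := h.mono fun _ _ _ k l => ind_zero (k l)

theorem Bd.ind (h : Bd φ) : Bd (ind p φ) :=
  fun r => (h r).imp fun _ k => k.mono fun _ k i l hi e => k i l hi fun u => e (ind_zero u)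

theorem Has.leq (h : Has F φ) (e : Leq φ φ') : Has F φ' := ⟨h.1, h.2.trans e⟩

theorem Al.curry {Φ : I × J → Mx Z a b} (h : Al Φ) : Has (fun i => tot fun j => Φ (i, j)) (tot Φ) :=
  ⟨h.push Prod.fst fun i _ _ k l => finsum_eq_zero_of_forall_eq_zero fun j => k (i, j) rfl l,
    h.fin.mono fun _ _ k l => (finsum_curry _ (k l)).symm⟩

/-- the products over a relation -/
def rel (R : I → J → Prop) (F : I → Mx Z a b) (G : J → Mx Z b c) : Mx Z a c :=
  tot fun p : I × J => ind (R p.1 p.2) (mul (F p.1) (G p.2))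

theorem has_rel {f : I → S.F a b} {g : J → S.F b c} (hf : Al fun i => Z.z (f i))
    (hg : Al fun j => Z.z (g j)) (R : I → J → Prop) (e : M → I × J) (he : Injective e)
    (hR : ∀ k, R (e k).1 (e k).2) (hs : ∀ p, S.t (f p.1) = S.s (g p.2) → R p.1 p.2 → p ∈ Set.range e) :
    Has (fun k => mul (Z.z (f (e k).1)) (Z.z (g (e k).2))) (rel R (fun i => Z.z (f i)) fun j => Z.z (g j)) :=
  ⟨(hf.prod' (fun _ => bd_z _) hg).comp he, by
    rw [tot_inj (F' := fun p : I × J => ind (R p.1 p.2) (mul (Z.z (f p.1)) (Z.z (g p.2)))) e he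
      (fun k => if_pos (hR k)) fun p hp => by
        unfold ind; split_ifs with u; exacts [mul_off fun h => hp (hs p h u), rfl]]
    exact Leq.rfl⟩

theorem has_relR (hF : Al F) (hb : ∀ i, Bd (F i)) (hG : Al G) (R : I → J → Prop) :
    Has (fun i => mul (F i) (tot fun j => ind (R i j) (G j))) (rel R F G) :=
  have k := ((hF.prod' hb hG).ind fun p => R p.1 p.2).curry
  ⟨hF.mono fun _ _ _ k l => by simp [mul, k], (tot_congr k.1 (hF.mono fun _ _ _ k l => by simp [mul, k]) fun i => by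
    simpa only [mul_ind] using mul_tot (hb i) (hG.ind (R i))).symm.trans k.2⟩

theorem has_relL (hF : Al F) (hb : ∀ i, Bd (F i)) (hG : Al G) (R : I → J → Prop) :
    Has (fun j => mul (tot fun i => ind (R i j) (F i)) (G j)) (rel R F G) := by
  have k := (Al.curry (Φ := fun p : J × I => ind (R p.2 p.1) (mul (F p.2) (G p.1)))
    (((hF.prod' hb hG).ind fun p => R p.1 p.2).comp Prod.swap_injective))
  have l : Al fun j => mul (tot fun i => ind (R i j) (F i)) (G j) :=
    (hF.prod hb hG).push Prod.snd fun j m i k l => Finset.sum_eq_zero fun s _ => by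
      rw [tot, finsum_mul]
      refine finsum_eq_zero_of_forall_eq_zero fun x => ?_
      unfold ind; split_ifs; exacts [k (x, j) rfl s l, zero_mul _]
  refine ⟨l, (tot_congr k.1 l fun j => by simpa only [ind_mul] using tot_mul (hF.ind (R · j)) (G j)).symm.trans ?_⟩
  rw [rel, ← tot_inj (F := fun p : J × I => ind (R p.2 p.1) (mul (F p.2) (G p.1))) Prod.swap Prod.swap_injective
    (fun _ => rfl) fun p hp => (hp (Prod.swap_surjective p)).elim]
  exact k.2

theorem mat_tot {m : ℕ} {y : (Z.A a).ι m → K} (T : Finset I)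
    (h : ∀ i, y i ≠ 0 → ∀ κ ∉ T, ∀ k, F κ m i k = 0) : mat (tot F m) y = ∑ κ ∈ T, mat (F κ m) y := by
  funext l
  refine Eq.trans ?_ (Finset.sum_apply l T fun κ => mat (F κ m) y).symm
  show ∑ i, y i * ∑ᶠ κ, F κ m i l = ∑ κ ∈ T, ∑ i, y i * F κ m i l
  rw [Finset.sum_comm]
  refine Finset.sum_congr rfl fun i _ => ?_
  by_cases e : y i = 0
  · simp [e]
  · rw [finsum_eq_sum_of_support_subset (s := T) _ fun κ t => by_contra fun u => t (h i e κ u l), Finset.mul_sum]

theorem Has.fin (h : Has F φ) {xs : ∀ m, (Z.cx a).H m} {x : (Z.cx a).LH} (r : Rp xs x) :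
    ∃ T : Finset I, ∀ T', T ⊆ T' → ∀ᶠ m in uf, mat (φ m) (xs m) = ∑ κ ∈ T', mat (F κ m) (xs m) := by
  obtain ⟨s, hs⟩ := r.le
  obtain ⟨T, k⟩ := h.1 s
  refine ⟨T, fun T' u => (hs.and ((ev_uf k).and (r.loc h.2.loc))).mono fun m ⟨k1, k2, k3⟩ => k3.symm.trans ?_⟩
  have hy : ∀ i, ¬((Z.A a).lab m i).2 ≤ s → xs m i = 0 := ((Z.A a).le_eq m s ▸ k1 :)
  exact mat_tot T' fun i e κ t => k2 i (by_contra fun v => e (hy i v)) κ fun v => t (u v)

variable {f : S.Arr a b} {g : S.Arr b c} {h : S.Arr c a}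

variable (Z) in
/-- the null-homotopy over a relation -/
def nulp (D : Sk.Dbl f g) (R : f.I → g.I → Prop) : Mx Z a c :=
  (tot fun j => ind (R (D.e j).1.1 (D.e j).1.2) (Z.z (D.h j))) +
    tot fun j : {j // D.half j} => ind (R (D.e j).1.1 (D.e j).1.2) (Z.z (D.γ j))

theorem bd_nulp (D : Sk.Dbl f g) (R : f.I → g.I → Prop) : Bd (nulp Z D R) :=
  (((alive D.ph).ind _).bd fun _ => (bd_z _).ind).add ((((alive D.pγ).sub _).ind _).bd fun _ => (bd_z _).ind)

theorem del_nulp (D : Sk.Dbl f g) {R : f.I → g.I → Prop}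
    (hR : ∀ j, R (D.e j).1.1 (D.e j).1.2 → R (D.e (D.r j)).1.1 (D.e (D.r j)).1.2) :
    Leq (del (nulp Z D R)) (rel R (fun i => Z.z (f.f i)) fun j => Z.z (g.f j)) := by
  have a1 := (alive (Z := Z) D.pp).ind fun j => R (D.e j).1.1 (D.e j).1.2
  have i1 : Injective fun j => (D.e j).1 := Subtype.val_injective.comp D.e.injective
  have h0 : Has (fun j => ind (R (D.e j).1.1 (D.e j).1.2) (mul (Z.z (f.f (D.e j).1.1)) (Z.z (g.f (D.e j).1.2))))
      (rel R (fun i => Z.z (f.f i)) fun j => Z.z (g.f j)) :=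
    ⟨(((alive f.prp).prod' (fun _ => bd_z _) (alive g.prp)).ind fun p => R p.1 p.2).comp i1, by
      rw [tot_inj (F' := fun p => ind (R p.1 p.2) (mul (Z.z (f.f p.1)) (Z.z (g.f p.2)))) _ i1 (fun _ => rfl)
        fun p hp => by unfold ind; split_ifs; exacts [mul_off fun u => hp ⟨D.e.symm ⟨p, u⟩, by simp⟩, rfl]]
      exact Leq.rfl⟩
  have h1 := (a1.has.add h0).del ((alive D.ph).ind _) fun j => by
    rw [← ind_add]
    exact Leq.ind (by simpa [nkt] using mas_bd (Z := Z) (D.bh j))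
  have h2 := (a1.half D.rr D.hr).del (((alive D.pγ).sub _).ind fun j => R (D.e j).1.1 (D.e j).1.2) fun j => by
    rw [show R (D.e (D.r j)).1.1 (D.e (D.r j)).1.2 = R (D.e j).1.1 (D.e j).1.2 from
      propext ⟨fun u => by simpa [D.rr] using hR _ u, hR _⟩, ← ind_add]
    exact Leq.ind (by simpa using mas_bd (Z := Z) (D.bγ j))
  rw [nulp, del_add]
  refine (h1.and h2).mono fun m i k l => ?_
  have := k.1 l
  have := k.2 l
  simp only [Pi.add_apply] at *
  grind

variable {D0 : Sk.Dbl f g} {D1 : Sk.Dbl g h} {N : S.Cap} {T : f.I → g.I → h.I → Prop} (P : Sk.Pen D0 D1 N T)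

/-- **the pentagon identity** -/
theorem penT : ∃ G φ ψ : Mx Z a a, Bd G ∧ Has (fun k => mul (nulp Z D0 fun i j => T i j k) (Z.z (h.f k))) φ ∧
    Has (fun i => mul (Z.z (f.f i)) (nulp Z D1 (T i))) ψ ∧ Leq (del G) (φ + ψ + (zt Z P.ι + capT Z P)) := by
  obtain ⟨pQ, pA, pB, pS1, pS2, pΓ1, pΓ2, pR1, pR2, pρ⟩ := P.prp
  have aκ : Al fun t => Z.z (P.κ t) := Cof.fintype _
  have h1 := (((has_z (Z := Z) pA).add (has_z pB)).add ((has_rel (alive f.prp) (alive D1.ph)
    (fun i j => T i (D1.e j).1.1 (D1.e j).1.2) _ (Subtype.val_injective.comp P.e1.injective)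
    (fun k => (P.e1 k).2.2) fun p hp u => ⟨P.e1.symm ⟨p, hp, u⟩, by simp⟩).add
    (has_rel (alive D0.ph) (alive h.prp) (fun j k => T (D0.e j).1.1 (D0.e j).1.2 k) _
      (Subtype.val_injective.comp P.e0.injective) (fun k => (P.e0 k).2.2)
      fun p hp u => ⟨P.e0.symm ⟨p, hp, u⟩, by simp⟩))).del (alive pQ) fun k => by
      simpa [nkt] using mas_bd (Z := Z) (P.bQ k)
  have h2 := ((((alive (Z := Z) pB).half (r1_r1 P) (r1_half P)).add ((alive pΓ1).sub _).has).add
    (has_rel ((alive D0.pγ).sub D0.half) (alive h.prp) (fun j k => T (D0.e j).1.1 (D0.e j).1.2 k)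
      (fun k : {k // D0.half (P.e0 k).1.1} => (⟨(P.e0 k).1.1, k.2⟩, (P.e0 k).1.2))
      (fun k k' e => Subtype.ext (P.e0.injective (Subtype.ext (by
        simp only [Prod.mk.injEq, Subtype.mk.injEq] at e; exact Prod.ext e.1 e.2)))) (fun k => (P.e0 k).2.2)
      fun p hp u => ⟨⟨P.e0.symm ⟨(p.1, p.2), D0.tγ _ ▸ hp, u⟩, by simpa using p.1.2⟩, by simp⟩)).del
    ((alive pS1).sub _) fun k => by simpa [nkt, add_assoc] using mas_bd (Z := Z) (P.bS1 k)
  have h3 := ((((alive (Z := Z) pA).half (r2_r2 P) (r2_half P)).add ((alive pΓ2).sub _).has).add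
    (has_rel (alive f.prp) ((alive D1.pγ).sub D1.half) (fun i j => T i (D1.e j).1.1 (D1.e j).1.2)
      (fun k : {k // D1.half (P.e1 k).1.2} => ((P.e1 k).1.1, ⟨(P.e1 k).1.2, k.2⟩))
      (fun k k' e => Subtype.ext (P.e1.injective (Subtype.ext (by
        simp only [Prod.mk.injEq, Subtype.mk.injEq] at e; exact Prod.ext e.1 e.2)))) (fun k => (P.e1 k).2.2)
      fun p hp u => ⟨⟨P.e1.symm ⟨(p.1, p.2), D1.sγ _ ▸ hp, u⟩, by simpa using p.2.2⟩, by simp⟩)).del
    ((alive pS2).sub _) fun k => by simpa [nkt, add_assoc] using mas_bd (Z := Z) (P.bS2 k)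
  have h4 := ((((alive (Z := Z) pΓ1).sub _).has.add ((alive pρ).half (r1_r1 P) (r1_half P))).add
    (has_live (cof_Lc P) N.p1 P.β1 P.c1)).del ((alive pR1).sub _) fun k => by
      simpa using mas (Z := Z) _ (P.bR1 k).1 (.of_eq (P.bR1 k).2)
  have h5 := ((((alive (Z := Z) pΓ2).sub _).has.add ((alive pρ).half (r2_r2 P) (r2_half P))).add
    (has_live (cof_Lc P) N.p2 P.β2 P.c2)).del ((alive pR2).sub _) fun k => by
      simpa using mas (Z := Z) _ (P.bR2 k).1 (.of_eq (P.bR2 k).2)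
  have h6 := ((Al.has (F := fun t => Z.z (P.ι t)) (Cof.fintype _)).add
    ((has_cap (Q := fun _ : Unit => N.B) (cof_Lc P) (Cof.fintype _)).caps (fun p => P.β0.symm p.1)
      (fun p p' e => Prod.ext (P.β0.symm.injective e) rfl)
      (fun t => by rw [P.c0, P.β0.apply_symm_apply])
      fun θ u => (u ⟨(P.β0 θ, ()), by simp⟩).elim)).del aκ fun t => by
      simpa using mas (Z := Z) _ (.of_eq (P.bκ t).1) (.of_eq (P.bκ t).2)
  refine ⟨_, _, _, (((((bd_zt (alive pQ)).add (bd_zt ((alive pS1).sub fun k => D0.half (P.e0 k).1.1))).add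
    (bd_zt ((alive pS2).sub fun k => D1.half (P.e1 k).1.2))).add
    (bd_zt ((alive pR1).sub fun k => D0.half (P.e0 k).1.1))).add
    (bd_zt ((alive pR2).sub fun k => D1.half (P.e1 k).1.2))).add (bd_zt aκ),
    by simpa only [nulp, add_mul'] using (has_relL (alive D0.ph) (fun _ => bd_z _) (alive h.prp)
      fun j k => T (D0.e j).1.1 (D0.e j).1.2 k).add (has_relL ((alive D0.pγ).sub D0.half) (fun _ => bd_z _)
        (alive h.prp) fun j k => T (D0.e j).1.1 (D0.e j).1.2 k),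
    by simpa only [nulp, mul_add'] using (has_relR (alive f.prp) (fun _ => bd_z _) (alive D1.ph)
      fun i j => T i (D1.e j).1.1 (D1.e j).1.2).add (has_relR (alive f.prp) (fun _ => bd_z _)
        ((alive D1.pγ).sub D1.half) fun i j => T i (D1.e j).1.1 (D1.e j).1.2), ?_⟩
  simp only [del_add]
  refine (h1.and (h2.and (h3.and (h4.and (h5.and h6))))).mono fun m i k l => ?_
  have k1 := k.1 l
  have k2 := k.2.1 l
  have k3 := k.2.2.1 l
  have k4 := k.2.2.2.1 l
  have k5 := k.2.2.2.2.1 l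
  have k6 := k.2.2.2.2.2 l
  have e : zt Z (fun _ : Unit => N.B) = Z.z N.B := by
    funext m i k; exact finsum_unique _
  rw [e] at k6
  simp only [Pi.add_apply, capT, mul_add, Finset.sum_add_distrib] at *
  simp only [zt] at *
  rw [k1, k2, k3, k4, k5, k6]
  grind

theorem del_ind {f : I → S.F a b} (hp : ∀ κ, S.Pt (f κ)) (h : S.Prp f) (q : I → Prop) : (Z.cx a).Loc fun m y =>
    (Z.cx b).d m (mp (tot fun i => ind (q i) (Z.z (f i))) m y) =
      mp (tot fun i => ind (q i) (Z.z (f i))) m ((Z.cx a).d m y) :=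
  loc_mono (del_tot ((alive h).ind q) (F' := fun i => ind (q i) 0) (fun _ => ⟨∅, Eventually.of_forall
    fun _ _ _ _ _ _ => ind_zero rfl⟩) fun κ => Leq.ind (by
      simpa using mas_bd (Z := Z) (l := []) (n := []) ⟨.of_eq (hp κ).fc, .of_eq (hp κ).nk, (hp κ).cp⟩)).loc
    fun m y k => by
      rw [mat_del, mat_tot (F := fun i => ind (q i) 0) ∅ fun _ _ _ _ _ => ind_zero rfl] at k
      exact funext fun l => CharTwo.add_eq_zero.1 (congrFun k l)

/-- ALG-4' -/
theorem pent2Stmt : Pent2Stmt := fun S Z b c f g h D0 D1 N T P hN hI ⟨t, ht⟩ hh y hy => by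
  classical
  have hz : zt Z P.ι = Z.z (P.ι t) := by
    funext m i k; exact finsum_eq_single _ t fun t' u => (u (hI _ _)).elim
  have h1 : ∀ᶠ m in uf, Z.z (P.ι t) m (Z.pt m) (Z.pt m) ≠ 0 := by
    refine (Ultrafilter.em (hyperfilter ℕ) _).resolve_right fun u => ht ?_
    rw [Z.hm_eq (P.pι t)]
    refine Cx.hext fun x hx => ?_
    obtain ⟨xs, -, rx, -⟩ := exists_rp x
    refine ((Z.cx _).cx.cls_congr _ (map_zero _) (((Z.ch (P.pι t)).rp rx).ext Rp.zero
      (u.mono fun m u => funext fun k => ?_))).trans ((Z.cx _).cx.cls_zero _)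
    exact (mat_one Z m _ _ k).trans (mul_eq_zero_of_right _ (not_not.1 u))
  have h2 : ∀ t', Z.dg (P.ι t') = 0 := fun t' => by
    obtain ⟨m, u⟩ := h1.exists
    simpa [hI t' t] using congrArg Prod.snd (Z.hz _ m _ _ u).2
  have h3 : ∀ᶠ m in atTop, capT Z P m (Z.pt m) (Z.pt m) = 0 :=
    (capT_low P hN).mono fun m k => by_contra fun u => by
      obtain ⟨t', v⟩ := k _ _ u
      simp [h2] at v
  obtain ⟨G, φ, ψ, hG, hφ, hψ, e⟩ := penT (Z := Z) P
  obtain ⟨x, hx, rfl⟩ := (Z.cx _).cx.exists_cls y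
  choose w hw using fun i => ((Z.cx b).cx.cls_eq_zero ((Z.ch (f.pt i)).isCh.cyc hx)).1
    (by have := hy i; rwa [Z.hm_eq (f.pt i)] at this)
  obtain ⟨xs, -, rx, -⟩ := exists_rp x
  choose ws _ rw' _ using fun i => exists_rp (w i)
  have e1 : ∀ i, ∀ᶠ m in uf, (Z.cx b).d m (ws i m) = mp (Z.z (f.f i)) m (xs m) := fun i =>
    ((Z.cx b).dM.rp (rw' i)).ev (show Rp _ ((Z.cx b).cx.d (w i)) from hw i ▸ (Z.ch (f.pt i)).rp rx)
  obtain ⟨A, hA⟩ := alive (Z := Z) f.prp 0
  have eA : ∀ {d : S.E} (χ : f.I → Mx Z b d), ∀ᶠ m in uf, mat (tot (fun i => mul (Z.z (f.f i)) (χ i)) m) (xs m) =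
      ∑ i ∈ A, mp (χ i) m ((Z.cx b).d m (ws i m)) := fun χ =>
    ((ev_uf hA).and ((eventually_all_finset A).2 fun i _ => e1 i)).mono fun m k =>
      (mat_tot A fun i _ κ u l => Finset.sum_eq_zero fun j _ =>
        mul_eq_zero_of_left (k.1 i (by rw [Z.pt_eq m i, Z.pt_deg]) κ u j) _).trans
        (Finset.sum_congr rfl fun i u => by rw [mat_mul, k.2 i u]; rfl)
  let Γ := fun i k => tot fun j => ind (T i j k) (Z.z (g.f j))
  have rv := fun k => ((wm _ (bd_nulp (Z := Z) D0 fun i j => T i j k)).rp rx).add (Rp.sum A fun i _ =>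
    (wm (Γ i k) (((alive g.prp).ind _).bd fun _ => (bd_z _).ind)).rp (rw' i))
  have e2 : ∀ k, ∀ᶠ m in uf, mp (Z.z (h.f k)) m (mp (nulp Z D0 fun i j => T i j k) m (xs m) +
      ∑ i ∈ A, mp (Γ i k) m (ws i m)) = 0 := fun k => by
    have hv := ((Z.cx c).dM.rp (rv k)).ext Rp.zero (((eA (Γ · k)).and ((rx.loc ((del_nulp D0 (R := (T · · k)) fun j => P.T1 j k).trans
      (has_relR (alive f.prp) (fun _ => bd_z _) (alive g.prp) _).2.symm).loc).and ((eventually_all_finset A).2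
        fun i _ => (rw' i).loc (del_ind g.pt g.prp (T i · k))))).mono fun m ⟨k1, k2, k3⟩ => by
      rw [mat_del, k1, show mat (Z.d S.one m) (xs m) = 0 from d_one Z m _, map_zero, add_zero] at k2
      show (Z.cx c).d m (_ + _) = 0
      rw [map_add, map_sum]
      exact (congrArg₂ (fun u v : (Z.cx c).H m => u + v) k2 (Finset.sum_congr rfl k3)).trans (add_self2 K _))
    obtain ⟨s, hs⟩ := ((Z.cx S.one).cx.cls_eq_zero ((Z.ch (h.pt k)).isCh.cyc hv)).1
      (by have := LinearMap.congr_fun (hh k) ((Z.cx c).cx.cls _ hv); rwa [Z.hm_eq (h.pt k)] at this)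
    obtain ⟨ss, -, rs, -⟩ := exists_rp s
    exact (((Z.cx S.one).dM.rp rs).ev (show Rp _ ((Z.cx S.one).cx.d s) from hs ▸ (Z.ch (h.pt k)).rp (rv k))).mono
      fun m k => k.symm.trans (d_one Z m _)
  obtain ⟨C, hC⟩ := hφ.fin rx
  choose B hB using fun i => ((has_relL (alive g.prp) (fun _ => bd_z _) (alive h.prp) (T i)).leq
    (del_nulp (Z := Z) D1 (P.T2 i)).symm).fin (rw' i)
  refine ((Z.cx _).cx.cls_congr _ (map_zero _) (rx.ext Rp.zero ((h1.and ((ev_uf h3).and ((rx.loc e.loc).and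
    ((hC (C ∪ A.biUnion B) Finset.subset_union_left).and ((rx.loc hψ.2.loc).and ((eA fun i => nulp Z D1 (T i)).and
      (((eventually_all_finset A).2 fun i u => hB i (C ∪ A.biUnion B) ((Finset.subset_biUnion_of_mem B u).trans
        Finset.subset_union_right)).and ((eventually_all_finset (C ∪ A.biUnion B)).2 fun k _ => e2 k)))))))).mono
        fun m ⟨k1, k2, k3, k4, k5, k6, k7, k8⟩ => ?_))).trans ((Z.cx _).cx.cls_zero _)
  have d0 : ∀ y, mat (Z.d S.one m) y = 0 := d_one Z m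
  have k0 : mat (φ m) (xs m) + mat (ψ m) (xs m) = 0 := by
    have k7' := fun i u => (show _ = mat (del (nulp Z D1 (T i)) m) (ws i m) by rw [mat_del, d0, zero_add]).trans (k7 i u)
    rw [k4, ← k5, k6.trans ((Finset.sum_congr rfl k7').trans Finset.sum_comm)]
    refine Finset.sum_add_distrib.symm.trans (Finset.sum_eq_zero fun k u => ?_)
    have := k8 k u
    rw [map_add, map_sum] at this
    simp only [mat_mul]
    exact this
  rw [mat_del, d0, d0, map_zero, add_zero, mat_add, mat_add, mat_add, k0, zero_add, hz] at k3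
  funext l
  have k9 : (0 : K) = mat (Z.z (P.ι t) m) (xs m) l + mat (capT Z P m) (xs m) l := congrFun k3 l
  rw [mat_one, mat_one, k2, mul_zero, add_zero] at k9
  exact (mul_eq_zero.1 k9.symm).resolve_right k1

end Crest.Agent.X212.Alg43
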