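import Crest.Agent.X212.Cut19.Stm
import Crest.Agent.X212.Sm25.Dsc
import Crest.Agent.X212.Rod53.Unk

/-!
# Row 212, layer GEO (helper5): `S¹ × ℝ³` and the torsion class of `S² × S¹`

* `bStmt : Cut19.BStmt`;
* `fr_two`, `fr_sph`, `fr_prod` : lines with exact curvature are trivial on `S²` and on `S² × S¹`;
* `r3Stmt : Cut19.R3Stmt`.
-/

set_option autoImplicit false
set_option linter.unusedSectionVars false

open Set Filter Topology Function Metric
open scoped ContDiff Manifold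
open Crest.Agent.R208.F (Ext)
open Crest.Agent.X212.Dr59 (Cl Ex HZ Mp pm)
open Crest.Agent.X212.Rod53 hiding Uni
open Crest.Agent.X212.Cyl58 (IsOE)
open Crest.Agent.X212.Lab56 (Cls Pic0 Dfm LOn)
open Crest.Agent.X212.Pic56
open Crest.Agent.X212.Line51 (Ln Uni)
open Crest.Agent.X212.Weil93 (Nice)
open Crest.Agent.X212.Glue52 (dir)

noncomputable section

namespace Crest.Agent.X212.Nv5

open Bor5.T Geo28 Cut19

/-! ### `S¹ × ℝ³` -/

theorem jr_wB (t : ℝ) : t ∈ Jr (wd wB) (1, 0) :=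
  have k : ∀ n, PM (wB n) (1, 0) := fun n => by
    unfold wB Cut19.sw
    split_ifs <;> exact PM.refl _
  mem_Jr_wd (k _) fun _ => k _

/-- the rod chart is global -/
def ΦB : ((Circle × ℂ) × ℝ) ≃ₘ^∞⟮IR, 𝓡 4⟯ X torT (wd wB) :=
  (IsOE.of_pd (torT.rod (wd wB) u10) IsOE.id fun w => .inr (jr_wB w.2)).diffeo fun p =>
    let ⟨w, _, e⟩ := torT.mem_rod u10 (tor_torT _ p) (.inr (jr_wB _)); ⟨w, e⟩

theorem ΦB_j (p : mR.M × ℝ) : (ΦB.symm (aB.j p)).1.1 = p.1.1 :=
  congrArg (fun w : (Circle × ℂ) × ℝ => w.1.1) (ΦB.symm_apply_apply (rc 10 (p.1.1, rd 12 p.2 • (p.1.2 : E3))))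

theorem pic_B : Pic0 (𝓡 4) (univ : Set (X torT (wd wB))) univ := by
  have p : Pic0 IR (univ : Set ((Circle × ℂ) × ℝ)) (univ ×ˢ {0}) :=
    Lab9.pic_tor.comp (f := Prod.fst) (g := fun x => (x, 0)) (W' := univ ×ˢ {0})
      (fun _ _ => contMDiffAt_fst) (mapsTo_univ _ _)
      (fun x _ => contMDiffAt_id.prodMk contMDiffAt_const) (mapsTo_univ _ _)
      fun y hy => Prod.ext rfl hy.2.symm
  exact (p.dfm (univ_prod_univ ▸ Lab56.dfm_cyl univ ordConnected_univ (mem_univ 0) rfl) isOpen_univ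
    subset_rfl).comp (fun y _ => ΦB.symm.contMDiff y) (mapsTo_univ _ _) (fun x _ => ΦB.contMDiff x)
    (mapsTo_univ _ _) fun y _ => ΦB.apply_symm_apply y

theorem hz_B : HZ (𝓡 4) 2 (univ : Set (X torT (wd wB))) := by
  rw [← (show Surjective ΦB from ΦB.surjective).range_eq, ← image_univ,
    Dr59.hz_oe ΦB.isLocalDiffeomorph ΦB.injective isOpen_univ, ← univ_prod_univ]
  exact (Dr59.hz_st (k := 0)).prod_convex isOpen_univ isOpen_univ convex_univ

/-- a class -/
def dB : Cls (𝓡 4) (univ : Set (X torT (wd wB))) :=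
  Lab56.on_sphD.cls.pull (fun y _ => ((isOE_uB.prodMap IsOE.id).comp (IsOE.of_diffeo ΦB.symm)).loc y)
    (mapsTo_univ _ _)

theorem sur_B (u : mR.M → Circle) (hu : ContMDiff mR.I (𝓡 1) ∞ u) : ∃ w : X torT (wd wB) → Circle,
    ContMDiff (𝓡 4) (𝓡 1) ∞ w ∧ ∀ y, ∀ t < (4 : ℝ), w (aB.j (y, t)) = u y := by
  have c : Continuous fun y => (u y : ℂ) := continuous_subtype_val.comp hu.continuous
  obtain ⟨n, hn⟩ := exists_deg (φ := fun z : sphere (0 : E3) 1 × Circle => (u (z.2, z.1) : ℂ))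
    (c.comp continuous_swap) (fun _ => Circle.coe_ne_zero _)
    (hasLog_sphere (by simp) (c.comp (Continuous.prodMk_right 1)) fun _ => Circle.coe_ne_zero _)
  obtain ⟨r, hr⟩ := Lab56.exists_arg (I := mR.I) isOpen_univ
    (φ := fun y => ((u y * (y.1 ^ n)⁻¹ : Circle) : ℂ))
    (fun y _ => cm_coe ((hu y).mul (cm_zpow contMDiffAt_fst n).inv)) (fun _ _ => Circle.norm_coe _)
    ((hn.comp continuous_swap.continuousOn (mapsTo_univ _ _)).congr fun y _ => by simp)
  have s : ContMDiff (𝓡 4) 𝓘(ℝ, ℝ) ∞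
      (extend aB.j (fun p : mR.M × ℝ => Real.smoothTransition (5 - p.2) * r p.1) fun _ => 0) :=
    aB.oe.contMDiff_extend (K := univ ×ˢ Iic 5)
      (by
        have e : aB.j '' (univ ×ˢ Iic 5) = torT.rr (wd wB) 10 ⁻¹' Ici (rd 12 5) := by
          ext p
          refine ⟨fun ⟨x, h, e⟩ => e ▸ (aB.mem x).2.ge.trans' (rd_le.2 h.2), fun h => ?_⟩
          obtain ⟨x, rfl⟩ := aB.surj (tor_torT _ p) ((lt_rd 12 5).trans_le h)
          exact ⟨x, ⟨trivial, rd_le.1 (le_of_le_of_eq h (aB.mem x).2)⟩, rfl⟩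
        exact e ▸ isClosed_Ici.preimage (cont_rr _ _))
      (fun p h => by
        rw [Real.smoothTransition.zero_of_nonpos (sub_nonpos.2 (le_of_not_ge fun k => h ⟨trivial, k⟩)), zero_mul])
      (fun p => (cm_fun (g := fun t => Real.smoothTransition (5 - t))
        (Real.smoothTransition.contDiffAt.comp _ (contDiffAt_const.sub contDiffAt_id)) contMDiffAt_snd).mul
        ((hr p.1 trivial).1.comp p contMDiffAt_fst)) contMDiff_const
  refine ⟨fun p => Circle.exp (extend aB.j _ _ p) * (ΦB.symm p).1.1 ^ n, fun p =>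
    ((contMDiff_circleExp _).comp p (s p)).mul (cm_zpow (ΦB.symm.contMDiff p).fst.fst n), fun y t ht => ?_⟩
  beta_reduce
  rw [aB.oe.inj.extend_apply, ΦB_j, Real.smoothTransition.one_of_one_le (by linarith), one_mul,
    ← Circle.ext (hr y trivial).2, inv_mul_cancel_right]

/-- **CUT-B** -/
theorem bStmt : BStmt where
  one := ⟨dB, by
    suffices h : ∀ a b : Cls (𝓡 4) (univ : Set (X torT (wd wB))), a = b from fun d => h d dB
    rintro ⟨a⟩ ⟨b⟩
    exact Quot.sound (pic_B.eqv subset_rfl a.ok b.ok)⟩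
  hz := hz_B
  sur := sur_B

/-! ### lines with exact curvature -/

section fl

variable {E : Type} [NormedAddCommGroup E] [NormedSpace ℝ E] [FiniteDimensional ℝ E]
  {H : Type} [TopologicalSpace H] {I : ModelWithCorners ℝ E H} [I.Boundaryless]
  {M : Type} [TopologicalSpace M] [ChartedSpace H M] [IsManifold I ∞ M] [T2Space M] [SigmaCompactSpace M]
  {F : Type} [NormedAddCommGroup F] [NormedSpace ℝ F] [FiniteDimensional ℝ F]
  {n : Type} [Fintype n] [DecidableEq n] {U V : Set M}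

theorem pic_vec : Pic0 𝓘(ℝ, F) (univ : Set F) univ :=
  Pic0.dfm (O₀ := {0}) (fun n _ _ q hq =>
    let ⟨a, ha⟩ := Line51.exists_unit (hq.prj 0 trivial) (hq.tr 0 trivial)
    ⟨fun _ => a, fun _ _ => .const _, fun y hy => (show y = 0 from hy) ▸ ha⟩)
    ⟨fun z => z.1 • z.2, by fun_prop, fun _ _ _ _ => trivial, fun _ _ => zero_smul _ _, fun _ _ => one_smul _ _⟩
    isOpen_univ subset_rfl

theorem nice_oe {j : F → M} (hj : IsOE 𝓘(ℝ, F) I j) : Nice I (range j) ∧ Pic0 I univ (range j) :=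
  ⟨⟨hj.isOpen_range, isPreconnected_range hj.continuous, fun _ =>
    image_univ ▸ (Dr59.hz_oe hj.loc hj.inj isOpen_univ).2 Dr59.hz_univ⟩,
    pic_vec.comp (f := hj.pd.symm) (fun _ h => hj.pd.symm.contMDiffOn_toFun.contMDiffAt
      (hj.isOpen_range.mem_nhds h)) (mapsTo_univ _ _) (fun x _ => hj.contMDiff x) (mapsTo_univ _ _)
      fun _ h => hj.pd.right_inv h⟩

theorem fr_two {L : Ln E M n} (h : L.On I univ) (hx : Ex I univ (L.F I)) (hU : Nice I U ∧ Pic0 I univ U)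
    (hV : Nice I V ∧ Pic0 I univ V) (hc : IsPreconnected (U ∩ V)) :
    ∃ s, IsFrame (fun x => clm (L.p x)) s (U ∪ V) := by
  classical
  obtain ⟨β, b1, b2, b3⟩ := hx.deg (k := 1) (h.cl_F isOpen_univ).dg
  obtain ⟨s, hs⟩ := Sm25.exists_par h hU.1 hU.2 (b1.mono (subset_univ _)) (b2.mono (subset_univ _))
    fun x _ => b3 x trivial
  obtain ⟨s', hs'⟩ := Sm25.exists_par h hV.1 hV.2 (b1.mono (subset_univ _)) (b2.mono (subset_univ _))
    fun x _ => b3 x trivial
  obtain ⟨c, c1, c2⟩ := Sm25.const_of_par (hU.1.op.inter hV.1.op) hc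
    ((hs'.mono inter_subset_right).trans (hs.mono inter_subset_left).symm)
  have a := (Lab56.frame_of_uni hs.toUni).smul (φ := fun _ => c) continuousOn_const
    fun _ _ e => by simp [e] at c1
  have a' := Lab56.frame_of_uni hs'.toUni
  have e : ∀ x ∈ V, (if x ∈ U then c • fun i => s x i () else fun i => s' x i ()) = fun i => s' x i () :=
    fun x hx => by
      split_ifs with k
      · rw [← (hs'.iso x hx).left, ← (hs.iso x k).tgt, Matrix.mul_assoc, c2 x ⟨k, hx⟩, Matrix.mul_smul,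
          Matrix.mul_one]
        rfl
      · rfl
  have k := a.congr (s' := fun x => if x ∈ U then c • fun i => s x i () else fun i => s' x i ())
    (fun _ _ => rfl) fun x hx => if_pos hx
  have k' := a'.congr (fun _ _ => rfl) e
  exact ⟨_, k.cont.union_of_isOpen k'.cont hU.1.op hV.1.op, fun x hx => hx.elim (k.sec x) (k'.sec x),
    fun x hx => hx.elim (k.ne x) (k'.ne x)⟩

end fl

/-- the two-sphere -/
abbrev S2 : Type := sphere (0 : E3) 1

theorem exists_st (v : S2) : ∃ j : EuclideanSpace ℝ (Fin 2) → S2, IsOE (𝓡 2) (𝓡 2) j ∧ range j = {-v}ᶜ := by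
  have : Fact (Module.finrank ℝ E3 = 2 + 1) := inferInstance
  have t : (Glue52.chE (𝓡 2) v).target = univ := by
    change (extChartAt (𝓡 2) v).target = _
    rw [extChartAt_target, show chartAt _ v = stereographic' 2 (-v) from rfl, stereographic'_target]
    simp
  refine ⟨_, IsOE.of_pd (Glue52.chE (𝓡 2) v).symm IsOE.id fun y => t.ge trivial, ?_⟩
  rw [← image_univ, ← t]
  exact ((extChartAt (𝓡 2) v).symm_image_target_eq_source.trans (extChartAt_source _ _)).trans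
    (stereographic'_source _)

theorem fr_sph {n : Type} [Fintype n] [DecidableEq n] {L : Ln (EuclideanSpace ℝ (Fin 2)) S2 n}
    (h : L.On (𝓡 2) univ) (hx : Ex (𝓡 2) univ (L.F (𝓡 2))) : ∃ s, IsFrame (fun x => clm (L.p x)) s univ := by
  obtain ⟨v⟩ : Nonempty S2 := inferInstance
  obtain ⟨j, h1, h2⟩ := exists_st v
  obtain ⟨j', h1', h2'⟩ := exists_st (-v)
  rw [neg_neg] at h2'
  obtain ⟨y, hy⟩ : v ∈ range j := h2.ge (ne_neg_of_mem_unit_sphere ℝ v)
  have e : range j ∩ range j' = j '' {y}ᶜ := by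
    rw [h2', ← hy, image_compl_eq_range_sdiff_image h1.inj, image_singleton, sdiff_eq]
  have u : range j ∪ range j' = univ := by
    rw [h2, h2', ← compl_inter, singleton_inter_of_notMem (s := {v}) (ne_neg_of_mem_unit_sphere ℝ v).symm, compl_empty]
  exact u ▸ fr_two h hx (nice_oe h1) (nice_oe h1') (e ▸ (isConnected_compl_singleton_of_one_lt_rank
    (by rw [← Module.finrank_eq_rank]; simp) y).isPreconnected.image _ h1.continuous.continuousOn)

theorem log_fin {S : Set Circle} (hS : S.Finite) {φ : S2 × Circle → ℂ} (h : ContinuousOn φ (univ ×ˢ S))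
    (h0 : ∀ z ∈ univ ×ˢ S, φ z ≠ 0) : HasLog φ (univ ×ˢ S) := by
  induction S, hS using Finite.induction_on with
  | empty => exact ⟨0, continuousOn_const, fun _ k => k.2.elim⟩
  | @insert a S ha hS ih =>
    have m : (univ : Set S2) ×ˢ S ⊆ univ ×ˢ insert a S := prod_mono_right (subset_insert _ _)
    rw [insert_eq, prod_union]
    refine HasLog.union (isClosed_univ.prod isClosed_singleton) (isClosed_univ.prod hS.isClosed) ?_ ?_
      (ih (h.mono m) fun z hz => h0 z (m hz))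
    · exact Set.Subsingleton.isPreconnected fun z hz => (ha (hz.1.2.out ▸ hz.2.2)).elim
    · exact ((hasLog_sphere (E := E3) (φ := fun x => φ (x, a)) (by simp)
        (h.comp_continuous (by fun_prop) fun _ => ⟨trivial, mem_insert _ _⟩)
        fun _ => h0 _ ⟨trivial, mem_insert _ _⟩).comp continuousOn_fst (mapsTo_univ _ _)).congr
        fun z hz => by rw [← hz.2.out]

theorem fr_prod {V : Type*} [NormedAddCommGroup V] [NormedSpace ℂ V] {P : S2 × Circle → V →L[ℂ] V}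
    (hP : IsLine P univ) (h : ∀ u, ∃ s, IsFrame (fun x => P (x, u)) s univ) : ∃ s, IsFrame P s univ := by
  let A : ℂ → Set (S2 × Circle) := fun n => (fun z => (z.2 : ℂ)) ⁻¹' Hem ⊤ n
  have c : Continuous fun z : S2 × Circle => (z.2 : ℂ) := continuous_subtype_val.comp continuous_snd
  have cl : ∀ n, IsClosed (A n) := fun n => (isClosed_hem ⊤ n).preimage c
  have k : ∀ n ∈ Pic56.Sph (⊤ : Submodule ℝ ℂ), ∃ s, IsFrame P s (A n) := fun n hn => by
    obtain ⟨s, hs⟩ := h (dir n)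
    refine hP.deform (S₀ := univ ×ˢ {dir n}) (cl n).isCompact
      (h := fun w => (w.2.1, dir ((1 - w.1) • n + w.1 • (w.2.2 : ℂ)))) (fun w hw => ?_) (fun _ _ _ _ => trivial)
      (fun z _ => ⟨trivial, by simp⟩) (fun z _ => Prod.ext rfl (by simpa using Glue52.dir_mul one_pos z.2))
      ((hs.comp continuousOn_fst (mapsTo_univ _ _)).congr (fun z hz => by rw [← hz.2.out]) fun _ _ => rfl)
    exact ((continuous_fst.comp continuous_snd).continuousAt.prodMk
      ((Glue52.contMDiffAt_dir (hcon_ne hn hw.1 hw.2)).continuousAt.comp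
        (f := fun w : ℝ × S2 × Circle => (1 - w.1) • n + w.1 • (w.2.2 : ℂ)) (by fun_prop))).continuousWithinAt
  have n1 : (1 : ℂ) ∈ Pic56.Sph (⊤ : Submodule ℝ ℂ) := ⟨trivial, norm_one⟩
  obtain ⟨s, hs⟩ := k 1 n1
  obtain ⟨s', hs'⟩ := k _ (neg_mem_sph n1)
  have e : A 1 ∩ A (-1) = univ ×ˢ (Subtype.val ⁻¹' Pic56.Sph (⊤ ⊓ (ℝ ∙ (1 : ℂ))ᗮ)) := by
    rw [← hem_inter]
    exact Set.ext fun _ => ⟨fun h => ⟨trivial, h⟩, And.right⟩
  have f : (Pic56.Sph (⊤ ⊓ (ℝ ∙ (1 : ℂ))ᗮ)).Finite := finite_sph (by simpa using finrank_inf_orth n1)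
  obtain ⟨t, ht, -⟩ := IsLine.patch (cl 1) (cl (-1)) (hP.mono (subset_univ _)) hs hs' fun φ a b _ => by
    rw [e] at a b ⊢
    exact log_fin (f.preimage Subtype.val_injective.injOn) a b
  exact ⟨t, ht.mono fun z _ => (hem_union ⊤ 1).ge ⟨trivial, z.2.norm_coe⟩⟩

/-- **CUT-R3** -/
theorem r3Stmt : R3Stmt := fun R => by
  have o := aB.oe.comp (((IsOE.of_diffeo (Diffeomorph.prodComm (𝓡 2) (𝓡 1) S2 Circle ∞)).comp
    (IsOE.of_diffeo R.φ)).prodMap (IsOE.id (IA := 𝓘(ℝ, ℝ)) (A := ℝ)))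
  have p := Rfl19.pb_pull (d := dB) fun y _ => o.loc y
  obtain ⟨c, hc⟩ := Nvg56.exists_cur dB
  refine existsUnique_of_exists_of_unique ⟨_, _, Nvg56.cur_dif p hc,
    (hz_B c (Nvg56.cur_cl hc)).pm ⟨fun y _ => o.contMDiff y, mapsTo_univ _ _⟩⟩ ?_
  suffices h : ∀ (D D' : Lab56.Dat (IY R.toO3) (univ : Set (R.Y.M × ℝ))) a a',
      Ln.On (IY R.toO3) ⟨D.d.det, a⟩ univ → Ln.On (IY R.toO3) ⟨D'.d.det, a'⟩ univ →
      Ex (IY R.toO3) univ (Ln.F (IY R.toO3) ⟨D.d.det, a⟩) → Ex (IY R.toO3) univ (Ln.F (IY R.toO3) ⟨D'.d.det, a'⟩) →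
      Lab56.Eqv D.d D'.d univ by
    rintro _ _ ⟨_, ⟨D, rfl, a, k, rfl⟩, x⟩ ⟨_, ⟨D', rfl, a', k', rfl⟩, x'⟩
    exact Quot.sound (h D D' a a' k k' x x')
  intro D D' a a' k k' x x'
  have q := D.ok.hl D'.ok
  have g : Ex (IY R.toO3) univ (Ln.F (IY R.toO3) ⟨D.d.hl D'.d, 0⟩) :=
    (((x'.sub x).sub (Sm25.ex_hl isOpen_univ D.ok D'.ok k k')).smul (1 / 2)).congr fun y _ => by
      simp only [Pi.smul_apply, Pi.sub_apply, Pi.add_apply]
      module
  obtain ⟨s, hs⟩ := fr_prod (q.isLine.comp (g := fun z : S2 × Circle => (R.φ.symm z, (0 : ℝ)))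
    (R.φ.symm.continuous.prodMk continuous_const).continuousOn (mapsTo_univ _ _)) fun u => by
      have m : Mp (𝓡 2) (IY R.toO3) univ univ fun x : S2 => (R.φ.symm (x, u), (0 : ℝ)) :=
        ⟨fun x _ => ((R.φ.symm.contMDiff _).comp x (contMDiffAt_id.prodMk contMDiffAt_const)).prodMk
          contMDiffAt_const, mapsTo_univ _ _⟩
      exact fr_sph (q.on.pull m) ((g.pm m).congr fun _ => q.on.F_pull isOpen_univ isOpen_univ m)
  exact (Lab56.eqv_iff D.ok D'.ok).2 (Dfm.fr (O₀ := univ ×ˢ {0})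
    (univ_prod_univ ▸ Lab56.dfm_cyl univ ordConnected_univ (mem_univ 0) rfl) isOpen_univ q
    ((hs.comp (g := fun y : R.Y.M × ℝ => R.φ y.1) (R.φ.continuous.comp continuous_fst).continuousOn
      (mapsTo_univ _ _)).congr (fun y hy => by rw [R.φ.symm_apply_apply, ← hy.2.out]) fun _ _ => rfl))

end Crest.Agent.X212.Nv5
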