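import Crest.Agent.X212.Lab56.Exi

/-!
# Row 212, layer GEO (helper5): the constant module on a frame

* `sc4 e` : the constant module on the frame `e`, `j0` : the constant section of its determinant line;
* `ri_rot` : a rotation by `g` in one plane multiplies `j0` by `g`;  `ri_cst` : constant changes fix `j0`;
* `dC`, `dP` : the cartesian and the polar datum on `S¹ × ℂ × ℝ`;  `ri_CP`, `ri_gl`.
-/

set_option autoImplicit false
set_option linter.unusedSectionVars false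

open Set Filter Topology Function Matrix Module
open scoped ContDiff Manifold Kronecker ComplexOrder MatrixOrder
open Crest.Agent.X212.Pj41 Crest.Agent.X212.Met55 Crest.Agent.X212.Lab56
open Crest.Agent.X212.Line51 (Uni)
open Crest.Agent.X212.Glue52 (dir)

noncomputable section

namespace Crest.Agent.X212.Nv5.Ch

/-! ### algebra -/

theorem gam_eq : gam = ![!![0, 0, -1, 0; 0, 0, 0, -1; 1, 0, 0, 0; 0, 1, 0, 0],
    !![0, 0, 0, .I; 0, 0, .I, 0; 0, .I, 0, 0; .I, 0, 0, 0],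
    !![0, 0, 0, 1; 0, 0, -1, 0; 0, 1, 0, 0; -1, 0, 0, 0],
    !![0, 0, .I, 0; 0, 0, 0, -.I; .I, 0, 0, 0; 0, -.I, 0, 0]] := by
  ext a i j
  fin_cases a <;> fin_cases i <;> fin_cases j <;> simp [gam, gaZ, GaussianInt.toComplex_def']

/-- the real structure -/
def J0 : Matrix (Fin 4) (Fin 4) ℂ := !![0, 1, 0, 0; -1, 0, 0, 0; 0, 0, 0, 1; 0, 0, -1, 0]

/-- the rotation -/
def Rm (g : ℂ) : Matrix (Fin 4) (Fin 4) ℝ := !![g.re, 0, 0, -g.im; 0, 1, 0, 0; 0, 0, 1, 0; g.im, 0, 0, g.re]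

/-- its lift -/
def ul (g : ℂ) : Matrix (Fin 4) (Fin 4) ℂ := diagonal ![g, 1, 1, g]

theorem p4_one : P4 (1 : Matrix (Fin 4) (Fin 4) ℝ) :=
  ⟨⟨fun a b => by simp [one_apply, eq_comm], fun a b => congrFun (congrFun (Matrix.mul_one 1) a) b⟩, by simp⟩

theorem un_J0 : Un (cj 1) (fun a => cj (gam a)) 1 gam J0 := by
  rw [cj, conjTranspose_one, transpose_one]
  refine ⟨⟨?_, ?_, Matrix.mul_one _⟩, fun a => ?_⟩
  · ext i j
    fin_cases i <;> fin_cases j <;> simp [J0, mul_apply, Fin.sum_univ_four]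
  · ext i j
    fin_cases i <;> fin_cases j <;> simp [J0, mul_apply, Fin.sum_univ_four]
  · ext i j
    fin_cases a <;> fin_cases i <;> fin_cases j <;> simp [J0, gam_eq, mul_apply, Fin.sum_univ_four]

theorem un_ul (g : Circle) : Un 1 (rot (Rm g) gam) 1 gam (ul g) := by
  have e : (starRingEnd ℂ) (g : ℂ) * g = 1 := by rw [Complex.conj_mul', Circle.norm_coe]; simp
  have e' : (g : ℂ).re * (g : ℂ).re + (g : ℂ).im * (g : ℂ).im = 1 := by simpa using congrArg Complex.re e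
  refine ⟨⟨?_, ?_, Matrix.mul_one _⟩, fun a => ?_⟩
  · ext i j
    fin_cases i <;> fin_cases j <;> simp [ul, mul_apply, Fin.sum_univ_four, e]
  · ext i j
    fin_cases i <;> fin_cases j <;> simp [ul, mul_apply, Fin.sum_univ_four, (mul_comm _ _).trans e]
  · ext i j
    fin_cases a <;> fin_cases i <;> fin_cases j <;>
      simp [ul, Rm, rot, gam_eq, Fin.sum_univ_four, Complex.ext_iff, e', mul_comm (g : ℂ).im] <;> linarith

theorem ul_J0 (g : ℂ) : ul g * J0 * (ul g)ᵀ = g • J0 := by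
  ext i j
  fin_cases i <;> fin_cases j <;> simp [ul, J0]

theorem piso_Rm (g : Circle) : PIso (Rm g) 1 1 := by
  have e : (g : ℂ).re * (g : ℂ).re + (g : ℂ).im * (g : ℂ).im = 1 := by
    simpa [Complex.normSq_apply] using Circle.normSq_coe g
  refine ⟨?_, ?_, Matrix.mul_one _⟩ <;> ext i j <;> fin_cases i <;> fin_cases j <;>
    simp [Rm, mul_apply, Fin.sum_univ_four] <;> linarith

theorem nrm_pd {R D : Matrix (Fin 4) (Fin 4) ℝ} (hR : PIso R 1 1) (hD : D.PosDef) : nrm 1 (R * D) = R := by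
  have e : CFC.sqrt (gram 1 (R * D)) = D := CFC.sqrt_unique (by
    rw [Pj41.gram, sub_self, add_zero, conjTranspose_mul, hD.isHermitian.eq, Matrix.mul_assoc,
      ← Matrix.mul_assoc Rᴴ, hR.src, Matrix.one_mul]) hD.posSemidef.nonneg
  rw [nrm, e, mul_nonsing_inv_cancel_right _ _ ((isUnit_iff_isUnit_det _).1 hD.isUnit)]

/-- the constant section -/
def j0 : Matrix (Fin 4 × Fin 4) Unit ℂ := Lab56.vec ((1 / 2 : ℂ) • J0)

theorem piso_j0 : PIso j0 1 (hP (fun a => cj (gam a)) gam) := un_J0.col p4_one pc_gam.bar pc_gam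

/-! ### frames -/

section fr

variable {E : Type} [NormedAddCommGroup E] [NormedSpace ℝ E] [FiniteDimensional ℝ E]
  {H : Type} [TopologicalSpace H] {I : ModelWithCorners ℝ E H}
  {M : Type} [TopologicalSpace M] [ChartedSpace H M] [IsManifold I ∞ M]
  {e w : Fin 4 → VF I M} {O : Set M} {x : M} (h4 : finrank ℝ E = 4)

/-- the constant module -/
def sc4 (e : Fin 4 → VF I M) : Sc I M (Fin 4) (Fin 4) := ⟨e, fun _ => 1, fun c _ => gam c⟩

theorem ri_rot {g : M → Circle} (hg : ∀ x ∈ O, FSm I (fun y => (g y : ℂ)) x)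
    (h : ∀ x ∈ O, pol e w x = Rm (g x)) :
    RI (sc4 e) (fun _ => j0) (sc4 w) (fun x => (g x : ℂ) • j0) O := by
  refine ⟨fun x => ul (g x), ⟨fun x hx i j => ?_, fun x hx => ?_⟩, fun x _ => ?_⟩
  · fin_cases i <;> fin_cases j <;> simp [ul, hg x hx, contMDiffAt_const]
  · show Un 1 (rot (pol e w x) gam) 1 gam _
    rw [h x hx]
    exact un_ul _
  · rw [kk, j0, kk_vec, Matrix.mul_smul, Matrix.smul_mul, ul_J0, smul_comm, Lab56.vec_smul]

include h4

theorem fP_one (hs : Sp (atx e x)) : fP e x = 1 :=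
  (prj_fP hs).eq_of_trace Prj.one (Matrix.one_mul _) ((p4_fP h4 hs).rk.trans (by simp))

theorem rf_sc4 (h : ∀ x ∈ O, FAt e x) : Rf (sc4 e) (fun _ => j0) O :=
  ⟨⟨h, fun x hx => p4_fP h4 (h x hx).sp, fun _ _ => MSm.const _, fun _ _ _ => MSm.const _,
    fun x hx => (fP_one h4 (h x hx).sp).symm ▸ pc_gam⟩, fun _ _ => MSm.const _, fun _ _ => piso_j0⟩

theorem pol_eq (hs : Sp (atx e x)) (hw : Sp (atx w x)) {A : Matrix (Fin 4) (Fin 4) ℝ}
    (h : ∀ k, w k x = ∑ a, A a k • e a x) : pol e w x = nrm 1 A := by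
  rw [pol, fP_one h4 hw]
  congr 1
  ext a k
  rw [fM_apply, fT, h k]
  exact (congrFun (th_sum (v := atx e x) _) a).trans (by
    rw [show prj _ (atx e x) = 1 from fP_one h4 hs, one_mulVec])

theorem ri_cst (he : ∀ x ∈ O, FAt e x) (hw : ∀ x ∈ O, FAt w x) {R : Matrix (Fin 4) (Fin 4) ℝ}
    (h : ∀ x ∈ O, pol e w x = R) : RI (sc4 e) (fun _ => j0) (sc4 w) (fun _ => j0) O := by
  rcases O.eq_empty_or_nonempty with rfl | ⟨x, hx⟩
  · exact ⟨0, ⟨fun _ h => h.elim, fun _ h => h.elim⟩, fun _ h => h.elim⟩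
  have p := piso_pol (he x hx).sp (hw x hx).sp
  rw [h x hx, fP_one h4 (he x hx).sp, fP_one h4 (hw x hx).sp] at p
  obtain ⟨σ, hσ⟩ := exists_un p4_one (pc_gam.rot p) pc_gam
  have i : Iw (sc4 e) (sc4 w) (fun _ => σ) O := ⟨fun _ _ => MSm.const _, fun y hy => by
    show Un 1 (rot (pol e w y) gam) 1 gam _
    rwa [h y hy]⟩
  have r := piso_ratio (by simp) ((i.sec (rf_sc4 h4 he).ok (rf_sc4 h4 hw).ok (rf_sc4 h4 he).sec).iso x hx) piso_j0
  obtain ⟨c, hc⟩ := IsAlgClosed.exists_pow_nat_eq (((kk (fun _ : M => σ) x * j0)ᴴ * j0).trace) two_pos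
  exact ri_of_sq i (c := fun _ => c) (fun _ _ => contMDiffAt_const) (fun _ _ => norm_of_sq (hc ▸ r.2))
    fun _ _ => hc ▸ r.1

end fr

/-! ### the model -/

open Rod53 (IR IT Z2 gl)

/-- the universal cover -/
abbrev FF : Type := (ℝ × ℂ) × ℝ

/-- the model -/
abbrev RR : Type := (Circle × ℂ) × ℝ

/-- the basis -/
def bF : Fin 4 → FF := ![((0, 1), 0), ((1, 0), 0), ((0, 0), 1), ((0, .I), 0)]

/-- the coordinates -/
def co (v : FF) : Fin 4 → ℝ := ![v.1.2.re, v.1.1, v.2, v.1.2.im]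

theorem sum_co (v : FF) : ∑ a, co v a • bF a = v := by
  ext <;> simp [co, bF, Fin.sum_univ_four]

/-- the constant fields, pushed forward -/
def pf (f : FF → RR) (k : Fin 4) : VF IR RR := pfv 𝓘(ℝ, FF) IR f fun _ => bF k

/-- a covering with translations as deck transformations -/
structure Cv (f : FF → RR) : Prop where
  ld : ∀ x, IsLocalDiffeomorphAt 𝓘(ℝ, FF) IR ∞ f x
  per : ∀ x x', f x = f x' → ∀ y, f (y + (x' - x)) = f y

variable {f g : FF → RR}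

theorem Cv.md (h : Cv f) (x : FF) : MDifferentiableAt 𝓘(ℝ, FF) IR f x :=
  (h.ld x).contMDiffAt.mdifferentiableAt (by simp)

theorem mf_comp {Λ : FF → FF} {x : FF} {L : FF →L[ℝ] FF} (hL : HasFDerivAt Λ L x) (h : Cv f) (v : FF) :
    mfderiv 𝓘(ℝ, FF) IR (f ∘ Λ) x v = mfderiv 𝓘(ℝ, FF) IR f (Λ x) (L v) := by
  rw [mfderiv_comp x (h.md _) hL.differentiableAt.mdifferentiableAt, mfderiv_eq_fderiv, hL.fderiv]
  rfl

theorem Cv.rel (h : Cv f) (k : Fin 4) (x : FF) : mfderiv 𝓘(ℝ, FF) IR f x (bF k) = pf f k (f x) := by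
  refine (FactorsThrough.extend_apply (g := fun y => (mfderiv 𝓘(ℝ, FF) IR f y (bF k) :
    (EuclideanSpace ℝ (Fin 1) × ℂ) × ℝ)) (fun a b e => ?_) (fun _ => 0) x).symm
  have := mf_comp ((hasFDerivAt_id a).add_const (b - a)) h (bF k)
  rw [show (f ∘ fun y => id y + (b - a)) = f from funext (h.per a b e), show id a + (b - a) = b by simp] at this
  exact this

theorem Cv.fAt (h : Cv f) (x : FF) : FAt (pf f) (f x) :=
  (fAt_rel (e := fun k _ => bF k) (h.ld x) fun k => .of_forall (h.rel k)).1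
    ⟨fun _ => contMDiffAt_vectorSpace_iff_contDiffAt.2 contDiffAt_const, fun v => ⟨co v, (sum_co v).symm⟩⟩

theorem Cv.comp (h : Cv f) {Λ : FF → FF} {x : FF} {L : FF →L[ℝ] FF} (hL : HasFDerivAt Λ L x) (k : Fin 4) :
    mfderiv 𝓘(ℝ, FF) IR (f ∘ Λ) x (bF k) = ∑ a, co (L (bF k)) a • pf f a (f (Λ x)) := by
  rw [mf_comp hL h]
  conv_lhs => rw [← sum_co (L (bF k))]
  simp only [← h.rel]
  exact (map_sum _ _ _).trans (Finset.sum_congr rfl fun a _ => map_smul _ _ _)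

/-- cartesian coordinates -/
def E1 (x : FF) : RR := ((Circle.exp x.1.1, x.1.2), x.2)

/-- polar coordinates -/
def Λ (x : FF) : FF := ((x.1.1, Complex.exp x.1.2), x.2)

theorem ld_vp {A B : Type} [NormedAddCommGroup A] [NormedSpace ℝ A] [NormedAddCommGroup B] [NormedSpace ℝ B] :
    IsLocalDiffeomorph 𝓘(ℝ, A × B) (𝓘(ℝ, A).prod 𝓘(ℝ, B)) ∞ (id : A × B → A × B) :=
  (Glue52.diffeoOf id id (contDiff_fst.contMDiff.prodMk contDiff_snd.contMDiff)
    (contMDiff_fst.prodMk_space contMDiff_snd) (fun _ => rfl) fun _ => rfl).isLocalDiffeomorph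

theorem cv_E1 : Cv E1 :=
  ⟨Glue52.ld_comp (Glue52.ld_prodMap (Glue52.ld_comp (Glue52.ld_prodMap Glue52.ld_circleExp Glue52.ld_id) ld_vp)
    Glue52.ld_id) ld_vp, fun x x' e y => by
    simp only [E1, Prod.mk.injEq] at e
    simp [E1, Circle.exp_add, Circle.exp_sub, e.1.1, e.1.2, e.2]⟩

/-- the derivative of `Λ` -/
def dΛ (z : ℂ) : FF ≃L[ℝ] FF :=
  ((ContinuousLinearEquiv.refl ℝ ℝ).prodCongr ((ContinuousLinearEquiv.unitsEquivAut ℂ
    (Units.mk0 _ (Complex.exp_ne_zero z))).restrictScalars ℝ)).prodCongr (.refl ℝ ℝ)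

theorem hd_Λ (x : FF) : HasFDerivAt Λ (dΛ x.1.2 : FF →L[ℝ] FF) x :=
  (HasFDerivAt.prodMap (p := x) (HasFDerivAt.prodMap (p := x.1) (hasFDerivAt_id _)
    ((Complex.hasDerivAt_exp _).hasFDerivAt.restrictScalars ℝ)) (hasFDerivAt_id _)).congr_fderiv (by ext <;> simp [dΛ])

theorem cv_E2 : Cv (E1 ∘ Λ) :=
  ⟨fun x => (Glue52.ld_of_fderiv isOpen_univ (mem_univ x) (ContDiff.contDiffOn (by unfold Λ; fun_prop)) _
    (hd_Λ x)).comp _ _ (cv_E1.ld _), fun x x' e y => by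
    simp only [E1, Λ, Function.comp_apply, Prod.mk.injEq] at e
    simp [E1, Λ, Circle.exp_add, Circle.exp_sub, Complex.exp_add, Complex.exp_sub, e.1.1, e.1.2, e.2]⟩

theorem h4R : finrank ℝ ((EuclideanSpace ℝ (Fin 1) × ℂ) × ℝ) = 4 := by simp

theorem surj_E2 {w : RR} (h : w ∈ Zc ×ˢ (univ : Set ℝ)) : ∃ x, (E1 ∘ Λ) x = w :=
  ⟨(((w.1.1 : ℂ).arg, Complex.log w.1.2), w.2), by simp [E1, Λ, Complex.exp_log h.1]⟩

theorem fAt_C (w : RR) : FAt (pf E1) w :=
  (show E1 (((w.1.1 : ℂ).arg, w.1.2), w.2) = w by simp [E1]) ▸ cv_E1.fAt _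

theorem fAt_P (w : RR) (h : w ∈ Zc ×ˢ (univ : Set ℝ)) : FAt (pf (E1 ∘ Λ)) w :=
  let ⟨x, e⟩ := surj_E2 h; e ▸ cv_E2.fAt x

/-- the cartesian datum -/
abbrev dC : Sc IR RR (Fin 4) (Fin 4) := sc4 (pf E1)

/-- the polar datum -/
abbrev dP : Sc IR RR (Fin 4) (Fin 4) := sc4 (pf (E1 ∘ Λ))

theorem rf_C : Rf dC (fun _ => j0) univ := rf_sc4 h4R fun w _ => fAt_C w

theorem rf_P : Rf dP (fun _ => j0) (Zc ×ˢ univ) := rf_sc4 h4R fAt_P

theorem ri_CP : RI dC (fun _ => j0) dP (fun w => (dir w.1.2 : ℂ) • j0) (Zc ×ˢ univ) := by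
  refine ri_rot (g := fun w : RR => dir w.1.2)
    (fun w h => Rod53.cm_coe (Rod53.cm_dir contMDiffAt_fst.snd h.1)) fun w h => ?_
  obtain ⟨x, rfl⟩ := surj_E2 h
  rw [pol_eq h4R (fAt_C _).sp (fAt_P _ h).sp (A := of fun a k => co (dΛ x.1.2 (bF k)) a)
    fun k => (cv_E2.rel k x).symm.trans (cv_E1.comp (hd_Λ x) k)]
  have p : 0 < ‖Complex.exp x.1.2‖ := norm_pos_iff.2 (Complex.exp_ne_zero _)
  have e := Glue52.norm_mul_dir (Complex.exp x.1.2)
  show _ = Rm (dir (Complex.exp x.1.2))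
  generalize dir (Complex.exp x.1.2) = g at e
  generalize ‖Complex.exp x.1.2‖ = r at e p
  rw [← nrm_pd (piso_Rm g) (D := diagonal ![r, 1, 1, r]) (PosDef.diagonal fun i => by fin_cases i <;> simp [p])]
  congr 1
  ext a k
  fin_cases a <;> fin_cases k <;> simp [co, bF, dΛ, Rm, ← e, mul_comm]

variable {a b : Z2}

/-- the linear form of `gl` -/
def LL (a b : Z2) : FF →L[ℝ] FF := LinearMap.toContinuousLinearMap
  { toFun x := ((a.1 * x.1.2.im + b.1 * x.1.1, x.1.2.re + (a.2 * x.1.2.im + b.2 * x.1.1 : ℝ) * .I), x.2)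
    map_add' x y := by ext <;> simp <;> ring
    map_smul' c x := by ext <;> simp <;> ring }

theorem gl_E2 (a b : Z2) : Prod.map (gl a b) id ∘ E1 ∘ Λ = (E1 ∘ Λ) ∘ LL a b := by
  funext x
  have e : ∀ s t : ℝ, Complex.exp (s + t * .I) = (Real.exp s : ℂ) * Circle.exp t := fun s t => by
    rw [Complex.exp_add, Circle.coe_exp, Complex.ofReal_exp]
  have k : ∀ (m n : ℤ) (s t : ℝ), Circle.exp (m * s + n * t) = Circle.exp s ^ m * Circle.exp t ^ n :=
    fun m n s t => by rw [Circle.exp_add, Circle.exp_intCast_mul, Circle.exp_intCast_mul]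
  show (gl a b (Circle.exp x.1.1, Complex.exp x.1.2), x.2) =
    ((Circle.exp (a.1 * x.1.2.im + b.1 * x.1.1), Complex.exp (_ + _ * _)), x.2)
  rw [e, k, k, ← Rod53.gl_polar _ _ _ _ (Real.exp_pos _), ← e, Complex.re_add_im]

theorem ld_G (hu : Rod53.Uni a b) (w : RR) (h : w ∈ Zc ×ˢ (univ : Set ℝ)) :
    IsLocalDiffeomorphAt IR IR ∞ (Prod.map (gl a b) id) w :=
  Glue52.ld_prodMap_at (Rod53.ld_gl hu h.1) (Glue52.ld_id _)

theorem maps_G : MapsTo (Prod.map (gl a b) id : RR → RR) (Zc ×ˢ univ) (Zc ×ˢ univ) :=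
  fun _ h => ⟨Rod53.gl_ne.2 h.1, trivial⟩

theorem ri_gl (hu : Rod53.Uni a b) :
    RI (dP.pull IR (Prod.map (gl a b) id)) (fun _ => j0) dP (fun _ => j0) (Zc ×ˢ univ) := by
  have k := (rf_P.ok.pull (ld_G hu) maps_G).fr
  refine ri_cst h4R k fAt_P (R := nrm 1 (of fun i k => co (LL a b (bF k)) i)) fun w h =>
    pol_eq h4R (k w h).sp (fAt_P w h).sp fun j => (ld_bij (ld_G hu w h)).1 ?_
  obtain ⟨x, rfl⟩ := surj_E2 h
  have e := cv_E2.comp (LL a b).hasFDerivAt (x := x) j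
  rw [← gl_E2, mfderiv_comp x ((ld_G hu _ h).contMDiffAt.mdifferentiableAt (by simp)) (cv_E2.md x),
    show (E1 ∘ Λ) (LL a b x) = _ from (congrFun (gl_E2 a b) x).symm] at e
  rw [← cv_E2.rel]
  refine e.trans (Eq.trans (Finset.sum_congr rfl fun i _ => ?_) (map_sum _ _ _).symm)
  exact (congrArg _ (pbv_rel (ld_G hu _ h) _).symm).trans (map_smul _ _ _).symm

end Crest.Agent.X212.Nv5.Ch
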