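import Crest.Agent.X212.Nv5.ChA

/-!
# Row 212, layer GEO (helper5): labels on toric manifolds are odd

* `RP` : the invariant reference;  `lab_R`, `odd_lab` : all its labels are odd;
* `dfm_ov`, `pic_ov`, `lab_ov` : labels exist over star shaped parts of the half plane;
* `tl_univ`, `tl_disc`, `odd_wd` : orders on words are given by characters.
-/

set_option autoImplicit false
set_option linter.unusedSectionVars false

open Set Filter Topology Function Metric
open scoped ContDiff Manifold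
open Crest.Agent.X212.Pj41 Crest.Agent.X212.Met55 Crest.Agent.X212.Lab56 Crest.Agent.X212.Line51
open Crest.Agent.X212.Rod53 hiding Uni cj
open Crest.Agent.X212.Glue52 (dir)
open Crest.Agent.X212.Cls19 (Sat)

noncomputable section

namespace Crest.Agent.X212.Nv5.Ch

variable {v : ℝ → Z2} {a b : Z2} {c : ℝ} {O : Set (ℝ × ℝ)} {U : Set (X torT v)} {x : X torT v} {m : ℝ → ℤ}
  {ι κ : Type} [Fintype ι] [Fintype κ] [DecidableEq ι] [DecidableEq κ] {d : Sc (𝓡 4) (X torT v) ι κ}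

/-- the invariant reference -/
def RP : Ref torT (Fin 4) (Fin 4) := ⟨dP, fun _ => j0, rf_P.mono fun _ h => ⟨torT.τ_mem.1 h.1, trivial⟩⟩

variable (v) in
/-- the cartesian datum of a rod chart -/
def dR (hu : Rod53.Uni a b) : Sc (𝓡 4) (X torT v) (Fin 4) (Fin 4) := dC.pull (𝓡 4) (torT.rod v hu).symm

theorem rf_R (hu : Rod53.Uni a b) : Rf (dR v hu) (fun _ => j0) (torT.rod v hu).target :=
  rf_C.pull (fun _ => ld_pd (torT.rod v hu).symm) (mapsTo_univ _ _)

theorem ri_C (hu : Rod53.Uni a b) : RI (dP.pull IR (Prod.map (gl a b) id)) (fun _ => j0) dC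
    (fun w => (((dir w.1.2)⁻¹ : Circle) : ℂ) • j0) (Zc ×ˢ univ) :=
  have c := rf_C.mono (subset_univ (Zc ×ˢ univ))
  (ri_gl hu).trans (isOpen_ne2.prod isOpen_univ) (rf_P.pull (ld_G hu) maps_G) rf_P.ok c.ok
    (((ri_CP.symm c rf_P.ok).smul fun w => ((dir w.1.2)⁻¹ : Circle)).of_eq (.refl _ _)
      (fun w _ => by simp [smul_smul]) (.refl _ _) fun _ _ => rfl)

/-- **the cartesian datum has order `-1`** -/
theorem lab_R (hu : Rod53.Uni a b) :
    RP.Lab (dR v hu) (fun t => dot (dual a b (-1) 0) (v t)) (torT.rod v hu).target := by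
  have o := (torT.rod v hu).open_target
  have m : MapsTo (torT.rod v hu).symm ((torT.rod v hu).target ∩ off torT v) (Zc ×ˢ univ) :=
    fun _ h => ⟨(rod_symm hu h.1).2.2 h.2, trivial⟩
  have l := fun y (h : y ∈ (torT.rod v hu).target ∩ off torT v) => ld_pd (torT.rod v hu).symm h.1
  have r := fun y (h : y ∈ (torT.rod v hu).target) => (torT.rod v hu).right_inv h
  refine (lab_of_ri o (((ri_C hu).pull (rf_P.pull (ld_G hu) maps_G).ok (rf_C.ok.mono (subset_univ _)) l m).of_eq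
    ((pull_pull dP l fun y h => ld_G hu _ (m h)).trans (pull_congr dP fun y h =>
      eventually_of_mem ((o.inter isOpen_off).mem_nhds h) fun z k => ?_)) (fun _ _ => rfl) (.refl _ _) fun y h => ?_)
    ((tl_of_fr o (rf_R hu).sec).mul (tl_chi (η := dual a b (-1) 0) (fun y _ => tor_torT v y)
      fun _ _ _ => rep_dot _ _))).congr_m fun _ _ _ => .of_forall fun _ => (zero_add _).symm
  · conv_lhs => rw [← r z k.1]
    exact (congrArg _ (torT.rod_eq_ext hu (m k).1)).trans (ext_symm_ext (torT.τ_mem.2 (gl_ne.2 (m k).1)))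
  · beta_reduce
    conv_lhs => rw [mul_sc, ← r y h.1]
    exact congrArg (fun g : Circle => (g : ℂ) • j0) ((chi_rod hu (m h).1).trans (by
      rw [dual_left hu, dual_right hu, zpow_zero, mul_one, zpow_neg_one]))

/-- **labels are odd** -/
theorem odd_lab (hv : Loc v) (hU : IsOpen U) (hd : d.On U) (h : RP.Lab d m U) (hx : x ∈ U) (o : x ∉ off torT v)
    (hu : Rod53.Uni a b) (ht : torT.time v x ∈ Jr v a) : Odd (m (torT.time v x)) := by
  have := sigX (T := torT) hv
  obtain ⟨η, e⟩ := ((lab_R hu).mono (inter_subset_right (s := U))).par (hU.inter (torT.rod v hu).open_target)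
    (RP.rfx _) ((rf_R hu).ok.mono inter_subset_right) (hd.mono inter_subset_left) (h.mono inter_subset_left)
    ⟨hx, mem_rod_target hu (tor_torT v x) (.inr ht)⟩ o
  rw [e.self_of_nhds]
  refine Odd.add_even ?_ (even_two_mul _)
  rcases Jr.pm ht with k | k <;> simp [k, dot_neg', dual_left hu]

/-! ### star shaped sets -/

theorem pic_cvx {K : Set (ℂ × ℝ)} (hK : IsOpen K) (hc : Convex ℝ K) :
    Pic0 IR {w : RR | (w.1.2, w.2) ∈ K} {w | (w.1.2, w.2) ∈ K} := fun n _ _ q hq => by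
  rcases K.eq_empty_or_nonempty with rfl | ⟨s, hs⟩
  · exact ⟨0, fun _ h => h.elim, fun _ h => h.elim⟩
  obtain ⟨f, hf⟩ := Pic56.frame_circle (hq.isLine.comp (g := fun u : Circle => ((u, s.1), s.2)) (T := univ)
    (by fun_prop) fun _ _ => hs)
  refine Dfm.fr (O₀ := {z : RR | z.1.2 = s.1 ∧ z.2 = s.2})
    ⟨fun z => ((z.2.1.1, (1 - z.1) • s.1 + z.1 • z.2.1.2), (1 - z.1) • s.2 + z.1 • z.2.2), by fun_prop,
      fun t ht x hx => hc hs hx (sub_nonneg.2 ht.2) ht.1 (sub_add_cancel _ _), fun x _ => by simp,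
      fun x _ => by simp⟩ (hK.preimage (by fun_prop)) hq (s := fun z => f z.1.1)
    ⟨((continuousOn_univ.1 hf.cont).comp (by fun_prop)).continuousOn, ?_, fun z _ => hf.ne _ trivial⟩
  rintro ⟨⟨u, _⟩, _⟩ ⟨rfl, rfl⟩
  exact hf.sec u trivial

/-- the unit box -/
abbrev bx (c : ℝ) : Set (ℝ × ℝ) := ball c 1 ×ˢ ball 0 1

theorem rod_ov (hu : Rod53.Uni a b) {w : RR} (h : w ∈ Ur v a) :
    torT.rod v hu w ∈ torT.ov v O ↔ (w.2, ‖w.1.2‖) ∈ O := by
  rw [Tb.ov, mem_inter_iff, and_iff_right (tor_torT v _), mem_preimage, Tb.bs, torT.time_rod hu h, torT.yy_rod hu h]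

theorem symm_ov (hu : Rod53.Uni a b) (h : x ∈ (torT.rod v hu).target) (k : x ∈ torT.ov v O) :
    (((torT.rod v hu).symm x).2, ‖((torT.rod v hu).symm x).1.2‖) ∈ O :=
  (rod_ov hu ((torT.rod v hu).map_target h)).1 (((torT.rod v hu).right_inv h).symm ▸ k)

theorem pic_bx (hu : Rod53.Uni a b) (hc : ball c 1 ⊆ Jr v a) :
    Pic0 (𝓡 4) (torT.ov v (bx c)) (torT.ov v (bx c)) :=
  have k := fun x (hx : x ∈ torT.ov v (bx c)) => mem_rod_target hu hx.1 (.inr (hc hx.2.1))
  (pic_cvx (K := ball 0 1 ×ˢ ball c 1) (isOpen_ball.prod isOpen_ball) ((convex_ball _ _).prod (convex_ball _ _))).comp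
    (f := (torT.rod v hu).symm) (g := torT.rod v hu)
    (fun x hx => (ld_pd (torT.rod v hu).symm (k x hx)).contMDiffAt)
    (fun x hx => ⟨by simpa using (symm_ov hu (k x hx) hx).2, (symm_ov hu (k x hx) hx).1⟩)
    (fun _ hw => (ld_pd (torT.rod v hu) (.inr (hc hw.2))).contMDiffAt)
    (fun _ hw => (rod_ov hu (.inr (hc hw.2))).2 ⟨hw.2, by simpa using hw.1⟩)
    fun x hx => (torT.rod v hu).right_inv (k x hx)

variable (c O) in
/-- open, star shaped, containing the unit box -/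
structure St : Prop where
  op : IsOpen O
  bx : bx c ⊆ O
  st : ∀ q ∈ O, ∀ l ∈ Ioc (0 : ℝ) 1, (c + l * (q.1 - c), l * q.2) ∈ O

theorem st_univ : St c univ := ⟨isOpen_univ, subset_univ _, fun _ _ _ _ => trivial⟩

theorem st_disc {r : ℝ} (hr : 2 ≤ r) : St c {q | √((q.1 - c) ^ 2 + q.2 ^ 2) ∈ Iio r} := by
  refine ⟨isOpen_Iio.preimage (by fun_prop), fun q h => (Real.sqrt_lt' (by linarith)).2 ?_, fun q h l hl => ?_⟩
  · have h1 := abs_lt.1 (show |q.1 - c| < 1 from h.1)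
    have h2 := abs_lt.1 (show |q.2 - 0| < 1 from h.2)
    nlinarith [h1.1, h1.2, h2.1, h2.2]
  · refine lt_of_le_of_lt (Real.sqrt_le_sqrt ?_) h
    have : l ^ 2 ≤ 1 := pow_le_one₀ hl.1.le hl.2
    nlinarith [mul_nonneg (sub_nonneg.2 this) (add_nonneg (sq_nonneg (q.1 - c)) (sq_nonneg q.2))]

theorem dfm_ov (h : St c O) : Dfm (torT.ov v O ∩ off torT v) (torT.ov v (bx c) ∩ off torT v) := by
  let l : ℝ × RR → ℝ := fun z => (1 - z.1) * (1 + ‖z.2.1.2‖ + |z.2.2 - c|)⁻¹ + z.1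
  have p : ∀ w : RR, 1 ≤ 1 + ‖w.1.2‖ + |w.2 - c| := fun w => by
    linarith [norm_nonneg w.1.2, abs_nonneg (w.2 - c)]
  have l1 : ∀ t ∈ Icc (0 : ℝ) 1, ∀ w, l (t, w) ∈ Ioc (0 : ℝ) 1 := fun t ht w =>
    (convex_Ioc 0 1) ⟨inv_pos.2 (one_pos.trans_le (p w)), inv_le_one_of_one_le₀ (p w)⟩ ⟨one_pos, le_rfl⟩
      (sub_nonneg.2 ht.2) ht.1 (sub_add_cancel _ _) |> (by simpa only [smul_eq_mul, mul_one] using ·)
  have n : ∀ t ∈ Icc (0 : ℝ) 1, ∀ w : RR, ‖l (t, w) • w.1.2‖ = l (t, w) * ‖w.1.2‖ := fun t ht w => by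
    rw [norm_smul, Real.norm_of_nonneg (l1 t ht w).1.le]
  have k := fun x (hx : x ∈ torT.ov v O ∩ off torT v) => mem_rod_target uni_std hx.1.1 (.inl hx.2)
  refine Dfm.comp (S := {w : RR | w.1.2 ≠ 0 ∧ (w.2, ‖w.1.2‖) ∈ O}) (S₀ := {w | (w.2, ‖w.1.2‖) ∈ bx c})
    ⟨fun z => ((z.2.1.1, l z • z.2.1.2), c + l z * (z.2.2 - c)), Continuous.continuousOn ?_,
      fun t ht w hw => ⟨smul_ne_zero (l1 t ht w).1.ne' hw.1, n t ht w ▸ h.st _ hw.2 _ (l1 t ht w)⟩,
      fun w _ => ?_, fun w _ => by simp [l]⟩ (p := (torT.rod v uni_std).symm) (q := torT.rod v uni_std)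
    (fun x hx => (ld_pd (torT.rod v _).symm (k x hx)).contMDiffAt.continuousAt.continuousWithinAt)
    (fun x hx => ⟨(rod_symm _ (k x hx)).2.2 hx.2, symm_ov _ (k x hx) hx.1⟩)
    (fun w hw => (ld_pd (torT.rod v _) (.inl hw.1)).contMDiffAt.continuousAt.continuousWithinAt)
    (fun w hw => ⟨(rod_ov _ (.inl hw.1)).2 hw.2, (rod_mem_off _ (.inl hw.1)).2 hw.1⟩)
    (fun w hw => ⟨(rod_ov _ (.inl hw.1.1)).2 hw.2, (rod_mem_off _ (.inl hw.1.1)).2 hw.1.1⟩)
    fun x hx => (torT.rod v _).right_inv (k x hx)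
  · have : Continuous l := by
      refine ((continuous_const.sub continuous_fst).mul (Continuous.inv₀ (by fun_prop) fun z => ?_)).add continuous_fst
      exact (one_pos.trans_le (p z.2)).ne'
    fun_prop
  · have q := one_pos.trans_le (p w)
    have z := left_mem_Icc.2 (zero_le_one' ℝ)
    constructor
    · show |c + l (0, w) * (w.2 - c) - c| < 1
      rw [add_sub_cancel_left, abs_mul, abs_of_pos (l1 0 z w).1]
      simp only [l, sub_zero, one_mul, add_zero]
      rw [inv_mul_lt_iff₀ q]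
      linarith [norm_nonneg w.1.2]
    · rw [mem_ball_zero_iff, norm_norm, n 0 z]
      simp only [l, sub_zero, one_mul, add_zero]
      rw [inv_mul_lt_iff₀ q]
      linarith [abs_nonneg (w.2 - c)]

theorem yy_axis (h : x ∉ off torT v) : torT.yy v x = 0 :=
  ((torT.ext_or_axis x).resolve_left fun ⟨_, k, e⟩ => h (e ▸ ext_mem_off k)).2.1

theorem axis_ov (h : x ∉ off torT v) : x ∈ torT.ov v O ↔ (torT.time v x, 0) ∈ O := by
  rw [Tb.ov, mem_inter_iff, and_iff_right (tor_torT v _), mem_preimage, Tb.bs, yy_axis h]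

theorem sat_ov : Sat torT v (torT.ov v O) := fun _ h o _ o' e => (axis_ov o').2 (e ▸ (axis_ov o).1 h)

section ex

variable (hv : Loc v) (hu : Rod53.Uni a b) (hc : ball c 1 ⊆ Jr v a) (h : St c O)
include hv hu hc h

/-- lines are trivial off the axis -/
theorem pic_ov : Pic0 (𝓡 4) (torT.ov v O) (torT.ov v O ∩ off torT v) :=
  have := sigX (T := torT) hv
  ((pic_bx hu hc).mono (inter_subset_inter_right _ (preimage_mono h.bx)) inter_subset_left).dfm (dfm_ov h)
    ((torT.isOpen_ov h.op).inter isOpen_off) inter_subset_left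

/-- **labels exist** -/
theorem lab_ov (hd : d.On (torT.ov v O)) : ∃ m, RP.Lab d m (torT.ov v O) := by
  have := sigX (T := torT) hv
  have s : torT.ov v (bx c) ⊆ torT.ov v O := inter_subset_inter_right _ (preimage_mono h.bx)
  have t : torT.ov v (bx c) ⊆ (torT.rod v hu).target := fun x hx => mem_rod_target hu hx.1 (.inr (hc hx.2.1))
  have r := (rf_R (v := v) hu).ok.mono t
  exact exists_lab (torT.isOpen_ov h.op) sat_ov (RP.rfx _) hd ((dfm_ov h).eqv
    ((torT.isOpen_ov h.op).inter isOpen_off) (inter_subset_inter_left _ s) (RP.rfx _).ok (hd.mono inter_subset_left)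
    (((lab_R hu).mono t).eqv_off.trans ((torT.isOpen_ov (isOpen_ball.prod isOpen_ball)).inter isOpen_off)
      (RP.rfx _).ok (r.mono inter_subset_left) (hd.mono (inter_subset_left.trans s))
      (((pic_bx hu hc).eqv subset_rfl r (hd.mono s)).mono inter_subset_left)))

end ex

/-! ### words -/

variable {w : ℤ → Z2} {i j : ℤ} {r t : ℝ} {k : ℤ → ℤ} {p : X torT (wd w) → Matrix κ κ ℂ}
  {s : X torT (wd w) → Matrix κ Unit ℂ} {D : Sc (𝓡 4) (X torT (wd w)) ι κ}

variable (w k) in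
/-- the characters `e` have the orders `k` -/
def Chs (e : ℤ → Z2) : Prop := ∀ l, dot (e l) (w (l - 1)) = k (l - 1) ∧ dot (e l) (w l) = k l

theorem axis_disc (h : x ∉ off torT v) : x ∈ torT.disc v c (Iio r) ↔ torT.time v x ∈ Ioo (c - r) (c + r) := by
  rw [Tb.mem_disc, and_iff_right (tor_torT v _), (torT.rr_axis h).2, mem_Iio, abs_sub_lt_iff, mem_Ioo,
    sub_lt_iff_lt_add', sub_lt_comm, and_comm]

theorem tl_univ (hw : IsWd w) (h : TL torT (wd w) m p s univ) :
    ∃ k e, Chs w k e ∧ TL torT (wd w) (wm w k) p s univ := by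
  obtain ⟨k, h⟩ := Cls19.tl_wd isOpen_univ h fun i => by
    rw [← preimage_univ (f := torT.time (wd w)), Cls19.img_time hw.loc, univ_inter]
    exact isPreconnected_Ioo
  choose e he using fun l : ℤ => let ⟨_, o, e⟩ := Cls19.exists_axis (T := torT) hw.loc l
    Cls19.tl_vch h (mem_univ _) o e
  exact ⟨k, e, he, h⟩

theorem tl_disc (hw : IsWd w) (hij : i ≤ j) (h1 : c - r ∈ Ico ((i : ℝ) - 1) i) (h2 : c + r ∈ Ioc (j : ℝ) (j + 1))
    (h : TL torT (wd w) m p s (torT.disc (wd w) c (Iio r))) :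
    ∃ k e, Chs w k e ∧ TL torT (wd w) (wm w k) p s (torT.disc (wd w) c (Iio r)) := by
  obtain ⟨n, h⟩ := Cls19.tl_wd (torT.isOpen_disc isOpen_Iio) h fun i => by
    have : torT.time (wd w) '' (torT.disc (wd w) c (Iio r) \ off torT (wd w)) = Ioo (c - r) (c + r) :=
      Subset.antisymm (by rintro _ ⟨x, hx, rfl⟩; exact (axis_disc hx.2).1 hx.1) fun t ht =>
        let ⟨x, o, e⟩ := Cls19.exists_axis (T := torT) hw.loc t; ⟨x, ⟨(axis_disc o).2 (e ▸ ht), o⟩, e⟩
    exact this ▸ (ordConnected_Ioo.inter ordConnected_Ioo).isPreconnected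
  have : ∀ l : ℤ, ∃ η, i ≤ l → l ≤ j → dot η (w (l - 1)) = n (l - 1) ∧ dot η (w l) = n l := fun l => by
    by_cases q : i ≤ l ∧ l ≤ j
    · obtain ⟨x, o, e⟩ := Cls19.exists_axis (T := torT) hw.loc l
      exact (Cls19.tl_vch h ((axis_disc o).2 (e ▸ ⟨h1.2.trans_le (by exact_mod_cast q.1),
        lt_of_le_of_lt (by exact_mod_cast q.2) h2.1⟩)) o e).imp fun _ a _ _ => a
    · exact ⟨0, fun a b => (q ⟨a, b⟩).elim⟩
  choose e he using this
  refine ⟨fun l => dot (e (max i (min l j))) (w l), fun l => e (max i (min l j)), fun l => ⟨?_, rfl⟩,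
    h.congr_m fun x hx o => eventually_of_mem (isOpen_Ioo.mem_nhds ((axis_disc o).1 hx)) fun t ht =>
      wm_congr (i := i - 1) (j := j) (fun _ _ _ => rfl) (fun l a b => ?_)
        ⟨by push_cast; exact h1.1.trans_lt ht.1, ht.2.trans_le h2.2⟩⟩
  · by_cases q : i < l ∧ l ≤ j
    · beta_reduce
      rw [show max i (min l j) = l by omega, show max i (min (l - 1) j) = l - 1 by omega,
        (he l q.1.le q.2).1, (he (l - 1) (by omega) (by omega)).2]
    · beta_reduce
      rw [show max i (min l j) = max i (min (l - 1) j) by omega]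
  · rcases a.eq_or_lt with rfl | a
    · rw [show max i (min (i - 1) j) = i by omega, (he i le_rfl hij).1]
    · rw [show max i (min l j) = l by omega, (he l (by omega) b).2]

theorem odd_wd (hw : IsWd w) {U : Set (X torT (wd w))} (hU : IsOpen U) (hd : D.On U) (h : RP.Lab D (wm w k) U)
    (ht : t ∈ Ioo (i : ℝ) (i + 1)) (hx : ∀ x, x ∉ off torT (wd w) → torT.time (wd w) x = t → x ∈ U) : Odd (k i) := by
  obtain ⟨x, o, e⟩ := Cls19.exists_axis (T := torT) hw.loc t
  obtain ⟨b, hu⟩ := hw.prim i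
  have := odd_lab hw.loc hU hd h (hx x o e) o hu (e ▸ Ioo_subset_Jr ht)
  rwa [e, wm_of_mem ht] at this

end Crest.Agent.X212.Nv5.Ch
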