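import Crest.Agent.X212.Nv5.Stm
import Crest.Agent.X212.Rfl19.Stm

/-!
# Row 212, layer S (helper5): non-vanishing, calculus of forms and classes
-/

set_option autoImplicit false
set_option linter.unusedSectionVars false

open Set Filter Topology Function Module
open scoped ContDiff Manifold
open Crest.Agent.R208 Crest.Agent.R208.F
open Crest.Agent.X212.Bor5.T
open Crest.Agent.X212.Dr59 hiding Ex
open Crest.Agent.X212.Int54
open Crest.Agent.X212.Cyl58 (TP TIso)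
open Crest.Agent.X212.Orx52 (TPos pr oR oX)
open Crest.Agent.X212.Rod53
open Crest.Agent.X212.Lab56 (Cls)
open Crest.Agent.X212.Line51 (Ang ang)
open Crest.Agent.X212.Rfl19
open Crest.Agent.X212.Win22 (Hf)

noncomputable section

namespace Crest.Agent.X212.Nv5

/-! ### forms -/

section TP

variable {M M' : TP E4} {J s : Set ℝ} (k : TIso M M' J)

theorem cs_psh {u : M.P.M → Ext M.P.E} (hs : s ⊆ J) (h : Cs M.P.I 2 (M.τ ⁻¹' s) u) :
    Cs M'.P.I 2 (M'.τ ⁻¹' s) (psh k.φ u) :=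
  k.image_preimage hs ▸ h.psh k.φ (k.src ▸ preimage_mono hs)

theorem psh_symm {u : M'.P.M → Ext M'.P.E} {x : M.P.M} (hx : M.τ x ∈ J) :
    psh k.symm.φ u x = pm M.P.I M'.P.I k u x := indicator_of_mem (k.mem_src hx) _

include k in
theorem open_time {x : M.P.M} (hx : M.τ x ∈ J) : ∀ᶠ y in 𝓝 x, M.τ y ∈ J :=
  eventually_of_mem (k.φ.open_source.mem_nhds (k.mem_src hx)) fun _ h => show _ ∈ M.τ ⁻¹' J from k.src ▸ h

end TP

variable {W Z : W4} {J : Set ℝ} {K L : Set W.M} {a b : W.Fm}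

theorem ip_psh (k : TIso W.X Z.X J) (hp : TPos k W.o Z.o) (h : Cs W.X.P.I 2 (W.X.τ ⁻¹' J) a) (c : Z.Fm) :
    ip Z.X.P.I Z.o c (psh k.φ a) = ip W.X.P.I W.o (pm W.X.P.I Z.X.P.I k c) a :=
  h.ip_psh k.φ k.src.ge Z.ori W.ori (SameOn.symm hp) c

theorem sq_psh (k : TIso W.X Z.X J) (hp : TPos k W.o Z.o) (h : Cs W.X.P.I 2 (W.X.τ ⁻¹' J) a) :
    Z.sq (psh k.φ a) = W.sq a :=
  (ip_psh k hp h _).trans (h.ip_congr fun _ hx => pm_psh k.φ (k.mem_src hx) a)

theorem ip_add {c : W.Fm} (ha : Cs W.X.P.I 2 univ a) (hb : Cs W.X.P.I 2 univ b) (hc : Cs W.X.P.I 2 univ c) :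
    ip W.X.P.I W.o (a + b) c = ip W.X.P.I W.o a c + ip W.X.P.I W.o b c := hc.ip_add W.ori ha.cl.sm hb.cl.sm

theorem ip_sub {c : W.Fm} (ha : Cs W.X.P.I 2 univ a) (hb : Cs W.X.P.I 2 univ b) (hc : Cs W.X.P.I 2 univ c) :
    ip W.X.P.I W.o (a - b) c = ip W.X.P.I W.o a c - ip W.X.P.I W.o b c := hc.ip_sub W.ori ha.cl.sm hb.cl.sm

theorem sq_add (ha : Cs W.X.P.I 2 univ a) (hb : Cs W.X.P.I 2 univ b) :
    W.sq (a + b) = W.sq a + 2 * ip W.X.P.I W.o a b + W.sq b := by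
  rw [W4.sq, ip_add ha hb (ha.add hb), ip_add_right ha hb W.ori ha.cl.sm, ip_add_right ha hb W.ori hb.cl.sm,
    ip_comm hb.cl.dg a]
  ring

theorem sq_smul (r : ℝ) (a : W.Fm) : W.sq (r • a) = r ^ 2 * W.sq a := by
  rw [W4.sq, ip_smul, ip_smul_right]
  ring

theorem sq_disj (ha : Cs W.X.P.I 2 K a) (hb : Cs W.X.P.I 2 L b) (h : Disjoint K L) :
    W.sq (a + b) = W.sq a + W.sq b := by
  rw [sq_add (ha.mono (subset_univ _)) (hb.mono (subset_univ _)), ha.ip_disj hb h]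
  ring

theorem cs_of_cl (hc : CompactSpace W.M) (h : Cl W.X.P.I 2 univ a) : Cs W.X.P.I 2 univ a :=
  ⟨h, .of_compactSpace _, subset_univ _⟩

theorem sq_pos (hc : CompactSpace W.M) (h : Cl W.X.P.I 2 univ a) (k : SameOn (a * a) W.o univ) : 0 < W.sq a := by
  have := W.ori.finCpt
  have := W.ori.openPos
  exact (W.ori.contMDiff_rat fun x => (h.mul h).sm x trivial).continuous.integral_pos_of_hasCompactSupport_nonneg_nonzero
    (.of_compactSpace _) (fun x => (k.symm.rat_pos (mem_univ x)).le)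
    (k.symm.rat_pos (mem_univ (Classical.arbitrary _))).ne'

theorem cs_pm (ρ : W4.Dif W Z) {c : Z.Fm} (h : Cs Z.X.P.I 2 univ c) :
    Cs W.X.P.I 2 univ (pm W.X.P.I Z.X.P.I ρ.φ c) :=
  ⟨h.cl.pm (Mp.of_contMDiff ρ.φ.contMDiff (mapsTo_univ _ _)),
    .intro (ρ.φ.toHomeomorph.isCompact_preimage.2 h.hc.isCompact) fun x hx => by
      rw [pm_apply, show c (ρ.φ x) = 0 from image_eq_zero_of_notMem_tsupport hx, map_zero], subset_univ _⟩

/-- a form that vanishes on the left part -/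
theorem cs_right {β β₂ α : ℝ} (l : TIso W.X Z.X (Iio β)) (h1 : α < β₂) (h2 : β₂ ≤ β) {z : Z.Fm}
    (h : Cs Z.X.P.I 2 univ z) (k : ∀ p, W.X.τ p < β₂ → pm W.X.P.I Z.X.P.I l z p = 0) :
    Cs Z.X.P.I 2 (Z.X.τ ⁻¹' Ioi α) z := by
  refine ⟨h.cl, h.hc, (closure_minimal (s := support z) (t := Z.X.τ ⁻¹' Ici β₂)
    (fun x hx => by_contra fun e => hx ?_) (isClosed_Ici.preimage Z.X.cont)).trans fun x hx => h1.trans_le hx⟩
  have e' : Z.X.τ x < β₂ := not_le.1 e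
  obtain ⟨p, hp, rfl⟩ := l.surj (e'.trans_le h2)
  refine pm_inj (b := 0) (l.ld (hp ▸ e'.trans_le h2)) ?_
  rw [k p (hp ▸ e'), pm_apply, Pi.zero_apply, map_zero]

/-- two maps through a third one -/
theorem pm_via {V : W4} {I : Set ℝ} (l : TIso V.X W.X I) (k : TIso W.X Z.X J) {l' : V.M → Z.M} {p : V.M}
    (hp : V.X.τ p ∈ I) (hq : V.X.τ p ∈ J) (e : ∀ x, V.X.τ x ∈ I → k (l x) = l' x) (c : Z.Fm) :
    pm V.X.P.I W.X.P.I l (pm W.X.P.I Z.X.P.I k c) p = pm V.X.P.I Z.X.P.I l' c p :=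
  (pm_comp ((k.ld ((l.tm p hp).symm ▸ hq)).mdifferentiableAt ne0) ((l.ld hp).mdifferentiableAt ne0)).trans
    (pm_congr ((open_time l hp).mono e) rfl)

/-- a diffeomorphism that is the identity off `(-2, 1)` -/
theorem ev_id {ρ : Z.M → Z.M} (h : ∀ p, Z.X.τ p ∉ Ioo (-2) 1 → ρ p = p) {x : Z.M} (hx : Z.X.τ x < -2) :
    ρ =ᶠ[𝓝 x] id :=
  eventually_of_mem ((isOpen_Iio.preimage Z.X.cont).mem_nhds hx) fun y hy => h y fun k => k.1.not_gt hy

theorem pm_fix (ρ : W4.Dif Z Z) (h : ∀ p, Z.X.τ p ∉ Ioo (-2) 1 → ρ.φ p = p) {c : Z.Fm}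
    (hc : Cs Z.X.P.I 2 (Z.X.τ ⁻¹' Iio (-2)) c) : pm Z.X.P.I Z.X.P.I ρ.φ c = c := funext fun x => by
  by_cases hx : Z.X.τ x < -2
  · exact pm_of_eventually_id (ev_id h hx) c
  · rw [hc.eq_zero hx, pm_apply, hc.eq_zero, map_zero]
    exact fun k => hx (by rwa [← ρ.φ.injective (h _ fun e => e.1.not_gt k)])

/-! ### classes -/

section Pb

variable {E : Type} [NormedAddCommGroup E] [NormedSpace ℝ E] [FiniteDimensional ℝ E]
  {H : Type} [TopologicalSpace H] {I : ModelWithCorners ℝ E H}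
  {M : Type} [TopologicalSpace M] [ChartedSpace H M] [IsManifold I ∞ M]
  {E' : Type} [NormedAddCommGroup E'] [NormedSpace ℝ E'] [FiniteDimensional ℝ E']
  {H' : Type} [TopologicalSpace H'] {I' : ModelWithCorners ℝ E' H'}
  {N : Type} [TopologicalSpace N] [ChartedSpace H' N] [IsManifold I' ∞ N]
  {E'' : Type} [NormedAddCommGroup E''] [NormedSpace ℝ E''] [FiniteDimensional ℝ E'']
  {H'' : Type} [TopologicalSpace H''] {I'' : ModelWithCorners ℝ E'' H''}
  {P : Type} [TopologicalSpace P] [ChartedSpace H'' P] [IsManifold I'' ∞ P]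
  {f : N → M} {g : P → N} {U : Set N} {V : Set P} {d : Cls I (univ : Set M)} {s : Cls I' (univ : Set N)}
  {u : Cls I'' (univ : Set P)}

theorem pb_cancel (h : Pb f U d s) (h' : Pb (f ∘ g) V d u) (hg : ∀ y ∈ V, IsLocalDiffeomorphAt I'' I' ∞ g y)
    (hm : MapsTo g V U) : Pb g V s u := by
  obtain ⟨a, e⟩ := h
  obtain ⟨b, e'⟩ := h'
  refine ⟨hg, ?_⟩
  rw [← e', ← d.pull_pull a (mapsTo_univ _ _) hg hm, e, res_pull]

end Pb

theorem pur_surj {L : Type} {H : Hf L} {D : L → ℚ} (h : Pur H D) : Surjective H.U := by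
  rw [← LinearMap.range_eq_top, eq_top_iff, ← H.top]
  refine iSup_le fun ⟨s, x⟩ => ?_
  by_cases k : ∃ k : ℕ, x = D s + 2 * k
  · obtain ⟨k, rfl⟩ := k
    have := H.fd s (D s + 2 * k)
    have := H.fd s (D s + 2 * k + 2)
    have m : ∀ y ∈ H.gr s (D s + 2 * k + 2), H.U y ∈ H.gr s (D s + 2 * k) := fun y hy => by
      simpa using H.U_mem s _ y hy
    have e : finrank Bor5.K (H.gr s (D s + 2 * k + 2)) = finrank Bor5.K (H.gr s (D s + 2 * k)) := by
      rw [(h.1 s k).1, show D s + 2 * k + 2 = D s + 2 * (k + 1 : ℕ) by push_cast; ring, (h.1 s (k + 1)).1]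
    have i : Injective (H.U.restrict m) := (injective_iff_map_eq_zero _).2 fun y hy =>
      Subtype.ext ((h.1 s k).2 y y.2 (congrArg Subtype.val hy))
    intro y hy
    obtain ⟨z, hz⟩ := (LinearMap.injective_iff_surjective_of_finrank_eq_finrank e).1 i ⟨y, hy⟩
    exact ⟨z, congrArg Subtype.val hz⟩
  · exact (h.2 s x k).trans_le bot_le

/-! ### words -/

theorem v1_w1 {a b : Z2} (h : Uni a b) : V1 (wd (w1 a b)) a b 0 := fun t => by
  rcases lt_trichotomy t 0 with e | rfl | e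
  · exact Jv.of_left (jr_w1l e) e
  · simpa [w1] using Ioo_subset_Jv (a := w1 a b) (i := 0) h (show (0 : ℝ) ∈ _ from ⟨by simp, by simp⟩)
  · exact Jv.of_right (jr_w1r e) e

theorem v1_wC : V1 (wd wC) (1, 0) (1, 1) (-1) := fun t => by
  rcases lt_trichotomy t (-1) with e | rfl | e
  · exact Jv.of_left (Iio_subset_Jr (j := -2) (fun _ hk => Or.inl (w1_neg (by omega)))
      (show t < _ by push_cast; linarith)) e
  · simpa [wC, w1] using Ioo_subset_Jv (a := wC) (i := -1) (.inl rfl)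
      (show (-1 : ℝ) ∈ _ from ⟨by simp, by simp⟩)
  · exact Jv.of_right (Ioi_subset_Jr (i := -1) (fun _ hk => Or.inl (w1_pos (by omega))) (by simpa using e)) e

variable {τ : Tub} {Y : O3} {f : Fo τ Y (1, 0)} {N : Nk Y} (j : Jc f N isZ.loc Z)

theorem exists_E : ∃ E, IsE j E := by
  obtain ⟨e, h⟩ := exists_WF (a := wZ) (m := mE) (show (0 : ℝ) < 1 / 10 by norm_num) (xa_zero τ.T 1)
    (fun n => by unfold mE wZ w2 dr; split_ifs <;> first | omega | simp) fun _ => 0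
  exact ⟨_, e, h, rfl⟩

theorem exists_G {ϑ : τ.N.M → Circle} (hϑ : Ang τ.T ϑ (0, 1)) : ∃ G, IsG j ϑ G := by
  obtain ⟨e, h⟩ := exists_WF (a := wZ) (m := mG) (show (0 : ℝ) < 1 / 10 by norm_num) (xa_ang hϑ 1)
    (fun n => by unfold mG wZ w2 dr; split_ifs <;> first | omega | simp) nG
  exact ⟨_, e, h, rfl⟩

variable {j}

theorem IsE.cs {E : Z.Fm} (h : IsE j E) : Cs Z.X.P.I 2 univ E := by
  obtain ⟨e, h, rfl⟩ := h
  have k := h.cs_time (i := -2) (j := 1) (s := 0) (s' := 0) (xa_zero τ.T 1) (by norm_num) isZ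
    (fun n hn => ⟨by rw [mE, if_neg (by omega), if_neg (by omega), smul_zero], rfl⟩)
    fun n hn => ⟨by rw [mE, if_neg (by omega), if_neg (by omega), smul_zero], rfl⟩
  exact (cs_psh j.r (fun t ht => by
    have := N.lt; have := N.hb; have := ht.1; push_cast at this; rw [mem_Ioi]; linarith) k).mono (subset_univ _)

theorem IsG.cs {ϑ : τ.N.M → Circle} (hϑ : Ang τ.T ϑ (0, 1)) {G : Z.Fm} (h : IsG j ϑ G) :
    Cs Z.X.P.I 2 (Z.X.τ ⁻¹' Ioi (-3 / 4)) G := by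
  obtain ⟨e, h, rfl⟩ := h
  have k := h.cs_time (i := -1) (j := 1) (s := 1) (s' := 0) (xa_ang hϑ 1) (by norm_num) isZ
    (fun n hn => ⟨by rw [mG, if_pos (by omega)]; simp, if_pos (by omega)⟩)
    fun n hn => ⟨by rw [mG, if_neg (by omega), if_neg (by omega), zero_smul], if_neg (by omega)⟩
  exact (cs_psh j.r (fun t ht => by
    have := N.lt; have := N.hb; have := ht.1; push_cast at this; rw [mem_Ioi]; linarith) k).mono
      (preimage_mono fun t ht => by have := ht.1; push_cast at this; rw [mem_Ioi]; linarith)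

end Crest.Agent.X212.Nv5
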