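import Crest.Agent.X212.Nv5.Step
import Crest.Agent.X212.Sw87.Rod
import Crest.Agent.X212.Rw22.Fam

/-!
# Row 212, layer S (helper5): non-vanishing from its leaves
-/

set_option autoImplicit false
set_option linter.unusedSectionVars false

open Set Filter Topology Function Module
open scoped ContDiff Manifold
open Crest.Agent.R208 Crest.Agent.R208.F
open Crest.Agent.X212.Bor5.T
open Crest.Agent.X212.Dr59 hiding Ex
open Crest.Agent.X212.Cyl58 (TP TIso)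
open Crest.Agent.X212.Orx52 (TPos Pos)
open Crest.Agent.X212.Rod53 (wd PM)
open Crest.Agent.X212.Rw22 (vK)
open Crest.Agent.X212.Rfl19

noncomputable section

namespace Crest.Agent.X212.Nv5

theorem exists_sign {W : W4} (r : ℝ) (w v : W.Fm) (x : ℝ) (h : 0 < W.sq v) :
    ∃ t : ℝ, x < W.sq (t • v) ∧ 0 ≤ r * ip W.X.P.I W.o w (t • v) := by
  obtain ⟨n, hn⟩ := exists_nat_gt (x / W.sq v)
  have k : x < (n : ℝ) ^ 2 * W.sq v := ((div_lt_iff₀ h).1 hn).trans_le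
    (mul_le_mul_of_nonneg_right (by exact_mod_cast Nat.le_self_pow two_ne_zero n) h.le)
  rcases le_total 0 (r * ip W.X.P.I W.o w v) with e | e
  · exact ⟨n, by rwa [sq_smul], by rw [ip_smul_right, mul_left_comm]; positivity⟩
  · exact ⟨-n, by rwa [sq_smul, neg_sq], by rw [ip_smul_right]; nlinarith [n.cast_nonneg (α := ℝ)]⟩

theorem seg {W : W4} (hc : CompactSpace W.M) {d : W.L} {c w u v : W.Fm} {r : ℝ} (k : Cur d c)
    (h : Cl W.X.P.I 2 univ c) (hw : Cl W.X.P.I 2 univ w) (pw : 0 < W.sq w) (hr : r ≠ 0) {K L : Set W.M}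
    (hu : Cs W.X.P.I 2 K u) (hv : Cs W.X.P.I 2 L v) (e : Disjoint K L) (pu : 0 < W.sq u) (pv : 0 < W.sq v)
    (su : 0 ≤ r * ip W.X.P.I W.o w u) (sv : 0 ≤ r * ip W.X.P.I W.o w v) : W.Seg d (c + r • w) (c + u + v) :=
  fun s hs => ⟨c, cs_of_cl hc h, k, by
    have a := hu.mono (subset_univ _)
    have b := hv.mono (subset_univ _)
    rw [show (1 - s) • (c + r • w) + s • (c + u + v) - c = ((1 - s) * r) • w + s • (u + v) by module,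
      sq_add ((cs_of_cl hc hw).smul _) ((a.add b).smul _), sq_smul, sq_smul, sq_disj hu hv e, ip_smul,
      ip_smul_right, ip_add_right a b W.ori hw.sm]
    have p1 := mul_nonneg (mul_nonneg (sub_nonneg.2 hs.2) hs.1) (add_nonneg su sv)
    have p2 := mul_nonneg (sq_nonneg ((1 - s) * r)) pw.le
    have p3 := mul_nonneg (sq_nonneg s) (add_pos pu pv).le
    rcases eq_or_ne s 0 with rfl | n
    · simpa using mul_pos (sq_pos_of_ne_zero hr) pw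
    · nlinarith [mul_pos (sq_pos_of_ne_zero n) (add_pos pu pv)]⟩

/-- two caps -/
def cap2 {S : Scene} {i j : S.ι} (C : Cp (S.ob i)) (C' : Cp (S.ob j)) {x : S.ι} :
    PLift (x = i) ⊕ PLift (x = j) → Cp (S.ob x)
  | .inl h => h.down ▸ C
  | .inr h => h.down ▸ C'

/-- **NON-VANISHING** -/
theorem nvStmt (hT : TwoStmt) (hG : GlStmt) (hC : CnStmt) (hX : ExtStmt) (hS : TestStmt) (hI : IsoStmt)
    (hR : RflStmt) (hL : LblStmt) (hA : AlgStmt) (hRod : Sw87.RodStmt') : NvStmt := by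
  intro Q r hQ S τ _ X ϑ n m R ε gd sg w Y f N
  obtain ⟨T⟩ := hT S τ X Y f N
  obtain ⟨d, c₀, r₀, nr, cv, q₀⟩ := hQ N.W N.w N.cpt N.cl N.sy
  obtain ⟨β₁, h1, h3⟩ := exists_between N.lt
  obtain ⟨β₂, h0, h2⟩ := exists_between h1
  have cc := hC.cl _ _ _ cv
  obtain ⟨η, cη, pη⟩ := hX τ Y f N _ T.J' _ (X.f ib trivial) c₀ β₁ cc h3
  obtain ⟨E, iE⟩ := exists_E T.J'
  obtain ⟨G, iG⟩ := exists_G T.J' gd.ang
  obtain ⟨e, ce, ne⟩ := hS τ Y f N _ T.J' E iE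
  obtain ⟨q, iso⟩ := hI τ Y f N _ T.J' ϑ E G gd.ang iE iG
  obtain ⟨ρ, q', nq, fix, rf⟩ := hR τ Y f N _ T.J' E iE
  obtain ⟨s, ns, lb⟩ := hL S τ X Y f N T ϑ G R gd.ang iG
  obtain ⟨κ, hκ, nμ⟩ : ∃ κ : ℤ, (κ = 1 ∨ κ = -1) ∧ ip T.Z'.X.P.I T.Z'.o η E + s * κ ≠ 0 := by
    by_contra! k
    have a := k 1 (.inl rfl)
    have b := k (-1) (.inr rfl)
    push_cast at a b
    exact ns (by linarith)
  have sub : Subsingleton (S.ob (X.ι ib)).L := ⟨fun a b => by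
    obtain ⟨x, ⟨x', hx⟩, kx⟩ := w.sj0 trivial a
    obtain ⟨y, ⟨y', hy⟩, ky⟩ := w.sj0 trivial b
    exact (w.eq0 trivial kx ky).2 ⟨x' - y', by simp only [Line51.dot, vK]; omega⟩⟩
  have sub' : Subsingleton (S.ob (X.ι ie)).L := ⟨fun a b => by
    obtain ⟨x, ⟨x', hx⟩, kx⟩ := w.sj0 trivial a
    obtain ⟨y, ⟨y', hy⟩, ky⟩ := w.sj0 trivial b
    exact (w.eq0 trivial kx ky).2 ⟨x' - y', by simp only [Line51.dot, vK]; omega⟩⟩
  obtain ⟨tL, bL, sL⟩ := exists_sign r₀ N.w N.vL (max (max r 0) (|q| * ((|ip T.Z'.X.P.I T.Z'.o η E| + |s * κ|) *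
    (2 + 2 * |q' * T.Z'.sq E|)) ^ 2)) N.pL
  obtain ⟨tR, bR, sR⟩ := exists_sign r₀ N.w N.vR (max r 0) N.pR
  simp only [max_lt_iff] at bL bR
  have s1 : Iic N.α ⊆ Iio N.β := Iic_subset_Iio.2 N.lt
  have cL := N.cL.smul tL
  have cs := cη.add ((cs_psh T.J'.l s1 cL).mono (preimage_mono (Iic_subset_Iic.2 (by linarith [N.lt, N.hb]))))
  let C : Cp (S.ob (X.ι ib)) := ⟨T.Z, T.lo, -1, T.ko, T.po, T.rs (η + psh T.J'.l.φ (tL • N.vL)),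
    (cs_psh T.fl.symm sub0 cs).mono (subset_univ _)⟩
  let C' : Cp (S.ob (X.ι ie)) := ⟨T.Z', T.lo', 0, T.ko', T.po', η + psh T.J'.l.φ (tL • N.vL), cs.mono (subset_univ _)⟩
  have s2 : Ioo N.α β₁ ⊆ Ioo N.α N.β := Ioo_subset_Ioo_right h3.le
  have s3 : Iio β₁ ⊆ Iio N.β := Iio_subset_Iio h3.le
  refine ⟨_, fun _ => inferInstance, cap2 C C', ⟨N.W, N.cpt, d, c₀, cv, τ, (1, 0), (1, 1), (0, 1),
    ⟨(1, 0), (0, 1), .inl rfl, .inl rfl, rfl, by rw [sg]; rfl⟩, Y, X.ι ib, X.ι ie, f, X.f ib trivial, X.f ie trivial,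
    X.c1 eg, ⟨_, 0, (X.h1 eg).loc, v1_w1 eg.2.2, ⟨rz (X.r1 eg)⟩⟩, N.α, β₁, h1, N.k.restr isOpen_Ioo s2,
    N.pk.restr _ _, tL • N.vL, tR • N.vR, cL, (N.cR.smul tR).mono (preimage_mono (Ici_subset_Ici.2 h3.le)),
    bL.1.1, bR.1, _, q₀, seg N.cpt cv cc N.cl (sq_pos N.cpt N.cl N.sy) nr cL (N.cR.smul tR)
      ((Iic_disjoint_Ici.2 N.lt.not_ge).preimage _) bL.1.2 bR.2 sL sR, .inl ⟨rfl⟩, wd wC, isC.loc, -1,
    by linarith [N.hb], v1_wC, T.J.l.restr isOpen_Iio s3, T.J.r, T.J.pl.restr _ _, T.J.pr,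
    fun y t ht => T.J.ov y t (s2 ht), T.eo, fun p hp => ?_, rfl, rfl, rfl, ‹_›, ϑ, gd, sub, sub', rfl, rfl,
    h3.le.trans N.hb, N.w, N.cl, N.sy, bL.1.2, bR.2, cs_of_cl N.cpt (cc.add (N.cl.smul _)), fun b hb => (N.ext b hb).imp fun u k =>
      ⟨k.1.mono (preimage_mono s3), fun p hp => k.2 p (s2 hp)⟩⟩, fun θ nv pu => ?_⟩
  · refine (T.pm_rs (s3 hp) _).trans ?_
    rw [pm_add, Pi.add_apply, pη p hp, pm_psh _ (T.J'.l.mem_src (s3 hp)), Pi.add_apply]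
  obtain ⟨D, hD, h0'⟩ := nv (pur_surj (pu ie rfl))
  have w' : (X.caps _ (cap2 C C')).Cw R (0, 1) ε :=
    ⟨w.ex0, w.sj0, w.eq0, w.ex1, w.sj1, w.eq1, w.in1, w.out1, w.ex2, w.eq2⟩
  obtain ⟨P, e1, -, e3⟩ := hRod _ θ τ univ vK (X.caps _ (cap2 C C')) ϑ (0, 1) R ε gd sg
    (fun i _ => by simpa [Line51.dot, vK] using i.2.1) w' fun i => Sw87.cw_ne w' (mem_univ i)
  have p1 : Even (ε ib + ε ib) := ⟨_, rfl⟩
  have p2 : Even (ε ib - κ + ε ie) := by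
    obtain ⟨x, hx⟩ := P.par_neg (a := ib) (b := ie) ⟨trivial, trivial, .inl rfl⟩ (by decide) ⟨_, rfl⟩ ⟨_, rfl⟩
    simp only [e1, Rw22.kp, Rw22.dot, vK] at hx
    rcases hκ with rfl | rfl
    exacts [⟨x + ε ie - 1, by omega⟩, ⟨x + ε ie, by omega⟩]
  obtain ⟨d₂, l₂⟩ := w.ex1 eg _ _ p1 p2
  let A : Dt T d c₀ β₁ d₂ := ⟨cv, β₂, h0, h2, h3, η, _, E, G, e, cη, pη, cs_psh T.J'.l s1 cL, iE.cs, iG.cs gd.ang, ce,
    ne, q, iso, ρ, q', nq, fix, rf, s * κ, fun D D' c a b => by rw [lb D D' d₂ _ _ c a l₂ b, sub_sub_cancel], nμ,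
    by rw [sq_psh _ T.J'.pl (cL.mono (preimage_mono s1))]; exact bL.2⟩
  obtain ⟨x, x0, hx⟩ := A.core hC hG sub (ξ := θ.ξ (i := X.ι ib) (.inl ⟨rfl⟩)) (ξ' := θ.ξ (i := X.ι ie) (.inr ⟨rfl⟩))
    (F := fun d y => θ.F (X.c1 eg) d y) (θ.natc (i := X.ι ie) (.inr ⟨rfl⟩) (.inr ⟨rfl⟩))
    (fun D' D d' a => θ.compc (j := X.ι ib) (k := X.ι ie) (.inl ⟨rfl⟩) (X.c1 eg) (.inr ⟨rfl⟩) T.g D' D d' T.go a
      (T.ext0 cs)) (fun _ => map_zero _) (θ.bnd (i := X.ι ib) (.inl ⟨rfl⟩)) hD h0'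
  exact hA _ _ P pu (ε ib) (ε ib - κ) x (e1 ▸ p1) (e1 ▸ p2) (by omega) x0
    ((LinearMap.congr_fun (e3 eg d₂ _ _ p1 p2 l₂) x).trans hx)

end Crest.Agent.X212.Nv5
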