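import Crest.Agent.X212.Pen22.Defs
import Crest.Agent.X212.Rob53.Th

/-!
# Row 212, layer GEO (helper5): a triple of rational homology spheres with the standard slopes
-/

set_option autoImplicit false
set_option linter.unusedSectionVars false

open Set Filter Topology Function Module
open scoped ContDiff Manifold
open Crest.Agent.X212.Orx52 hiding sigmaCompact
open Crest.Agent.X212.Rod53 Crest.Agent.X212.Bor5.T Crest.Agent.X212.Sw87 Crest.Agent.X212.Rob53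
open Crest.Agent.X212.Line51 (dot)
open Crest.Agent.X212.Ext52 (KD)
open Crest.Agent.X212.Glue52 (dir)

noncomputable section

namespace Crest.Agent.X212.Nv5

/-- the unknot -/
def unkD : KD where
  τ := uB
  ld := isOE_uB.loc
  inj := isOE_uB.inj
  θ y := dir (L4 y.1).1
  smθ y := cm_dir ((contDiff_fst.contMDiff.comp (cm_L4.comp contMDiff_subtype_val)) y)
    (mem_unk.1 fun u e => y.2 ⟨(u, 0), ⟨trivial, rfl⟩, e⟩)
  θτ z := (congrArg (fun w : ℂ × ℂ => dir w.1) (L4_uB z.1)).trans (dir_pos_mul (nf1_pos _) _)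

/-- **PEN-MOD** -/
theorem modStmt : Pen22.ModStmt := by
  let T := ofTube unkD.toTube
  have ho : OriOn (𝓡 3) T.Ex (-oS unkD.toTube) := (tK unkD).ori
  have hτ : Pos IT (𝓡 3) T.τ {z | z.2 ≠ 0} (((-1 : ℤ) : ℝ) • oT) (-oS unkD.toTube) := (tK unkD).pos
  have hu : Uni (-1, 1) (1, 0) := .inr (by simp [dt])
  obtain ⟨c, hc, hF⟩ := exists_ori_fl (T.fl hu) hu ho
  have n := (nc_KD unkD).mer (T.fl hu) hu one_ne_zero hc
  let τ := tub (oriOn hc _) ((pos_mer _ hF (by simp) hτ).mono (subset_univ _))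
  have k : ∀ a b : Z2, Uni a b → a.1 + a.2 ≠ 0 → ∃ A : Q3, Nonempty (Fo τ A.toO3 a) ∧ Nonempty A.L := fun a b h h0 =>
    let ⟨_, hd, hG⟩ := exists_ori_fl ((T.fl hu).mer.fl h) h (oriOn hc _)
    ⟨n.q3 ((T.fl hu).mer.fl h) h (by simpa [dot] using h0) hd,
      ⟨⟨_, h, (T.fl hu).mer.fl h, (pos_ie_iff _ (oriOn hc _)).2 hG⟩⟩,
      let ⟨L⟩ := exists_lb n.gd n.cl
      (L.nonempty (Fl.loc_const h) (Lab56.tor_const h)).map fun c => c.dif (Lab56.cyD ((T.fl hu).mer.fl h) h)⟩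
  obtain ⟨A, a⟩ := k (1, 0) (0, 1) (.inl (by simp [dt])) (by simp)
  obtain ⟨B, b⟩ := k (1, 1) (0, 1) (.inl (by simp [dt])) (by simp)
  obtain ⟨C, e⟩ := k (0, 1) (1, 0) uni_std (by simp)
  exact ⟨τ, A, B, C, rfl, a.1, b.1, e.1, a.2⟩

end Crest.Agent.X212.Nv5
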