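import Crest.Agent.X212.Nv5.Lem

/-!
# Row 212, layer S (helper5): non-vanishing, the reflection argument

`core` : some extension of the class has a non-zero invariant that the handle `b | e` kills; otherwise gluing the handle,
reflecting in the sphere and cutting again gives infinitely many classes with a non-zero invariant.
-/

set_option autoImplicit false
set_option linter.unusedSectionVars false

open Set Filter Topology Function Module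
open scoped ContDiff Manifold
open Crest.Agent.R208 Crest.Agent.R208.F
open Crest.Agent.X212.Bor5.T
open Crest.Agent.X212.Dr59 hiding Ex
open Crest.Agent.X212.Cyl58 (TP TIso)
open Crest.Agent.X212.Orx52 (TPos Pos)
open Crest.Agent.X212.Rw22 (vK)
open Crest.Agent.X212.Rfl19

noncomputable section

namespace Crest.Agent.X212.Nv5

variable {S : Scene} {τ : Tub} {X : Ex S τ univ vK} {Y : O3} {f : Fo τ Y (1, 0)} {N : Nk Y} (T : Two X f N)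

theorem sub0 : Iic (-3 / 4 : ℝ) ⊆ Iio 0 := Iic_subset_Iio.2 (by norm_num)

theorem disj {M : Type} (t : M → ℝ) (a : ℝ) : Disjoint (t ⁻¹' Iic a) (t ⁻¹' Ioi a) :=
  (Iic_disjoint_Ioi le_rfl).preimage t

namespace Two

/-- the first cap inside the second one -/
def fl : TIso T.Z.X T.Z'.X (Iio 0) where
  φ := T.g.l.φ
  src := T.g.l.src.trans (by ext x; simp [TP.shift, T.d1, T.gb])
  tgt := T.g.l.tgt.trans (by rw [T.gb])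
  tm x hx := (T.g.l.tm x (by simpa [TP.shift, T.d1, T.gb] using hx)).trans (by simp [TP.shift, T.d1])

theorem dom : {x | T.Z.X.τ x + T.g.δ₁ < T.g.β} = T.Z.X.τ ⁻¹' Iio 0 := by
  ext x
  simp [T.d1, T.gb]

theorem pf : TPos T.fl T.Z.o T.Z'.o := Pos.mono T.g.pl T.dom.ge

/-- forms of the second cap, on the first one -/
def rs (u : T.Z'.Fm) : T.Z.Fm := psh T.fl.symm.φ u

theorem pm_l {p : N.W.M} (hp : N.W.X.τ p < N.β) (u : T.Z'.Fm) :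
    pm N.W.X.P.I T.Z.X.P.I T.J.l (pm T.Z.X.P.I T.Z'.X.P.I T.fl u) p = pm N.W.X.P.I T.Z'.X.P.I T.J'.l u p :=
  pm_via T.J.l T.fl hp (hp.trans_le (N.hb.trans (by norm_num))) T.gl u

theorem lt0 {p : N.W.M} (hp : N.W.X.τ p < N.β) : T.Z.X.τ (T.J.l p) ∈ Iio 0 :=
  (T.J.l.mem hp).trans_le (N.hb.trans (by norm_num))

theorem pm_rs {p : N.W.M} (hp : N.W.X.τ p < N.β) (u : T.Z'.Fm) :
    pm N.W.X.P.I T.Z.X.P.I T.J.l (T.rs u) p = pm N.W.X.P.I T.Z'.X.P.I T.J'.l u p :=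
  (pm_congr_right (psh_symm T.fl (T.lt0 hp))).trans (T.pm_l hp u)

theorem ext0 {u : T.Z'.Fm} (h : Cs T.Z'.X.P.I 2 (T.Z'.X.τ ⁻¹' Iic (-3 / 4)) u) : T.g.Ext0 u (T.rs u) :=
  ⟨fun _ hx => (psh_symm T.fl (T.dom.le hx)).symm, fun x hx =>
    (cs_psh T.fl.symm sub0 h).eq_zero
      (not_le.2 (by simpa [T.d1, T.ga] using hx)), fun x hx => h.eq_zero (not_le.2 (T.ga ▸ hx))⟩

variable {T} {β : ℝ} {D : T.Z.L} {D' : T.Z'.L} {d : N.W.L} {d₂ : (S.cob (X.c1 eg)).L}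

theorem ev_gl (hβ : β ≤ N.β) : ∀ p ∈ N.W.X.τ ⁻¹' Iio β, (T.J'.l : N.W.M → T.Z'.M) =ᶠ[𝓝 p] T.g.fl ∘ T.J.l :=
  fun _ hp => (open_time T.J.l (hp.trans_le hβ)).mono fun x hx => (T.gl x hx).symm

theorem up (hβ : β ≤ N.β) (h : T.g.Rs D' D d₂) (k : Pb T.J.l (N.W.X.τ ⁻¹' Iio β) D d) :
    Pb T.J'.l (N.W.X.τ ⁻¹' Iio β) D' d :=
  pb_congr (pb_comp h.1 k fun _ hp => T.dom.ge (T.lt0 (hp.trans_le hβ))) (ev_gl hβ)

theorem down (hβ : β ≤ N.β) (h : T.g.Rs D' D d₂) (k : Pb T.J'.l (N.W.X.τ ⁻¹' Iio β) D' d) :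
    Pb T.J.l (N.W.X.τ ⁻¹' Iio β) D d :=
  pb_cancel h.1 (pb_congr k fun p hp => (ev_gl hβ p hp).symm) (fun _ hp => T.J.l.ld (hp.trans_le hβ))
    fun _ hp => T.dom.ge (T.lt0 (hp.trans_le hβ))

theorem height (hC : CnStmt) (h : T.g.Rs D' D d₂) {c c' e} (k : Cur D c) (k' : Cur D' c')
    (he : Cs T.Z'.X.P.I 2 (T.Z'.X.τ ⁻¹' Iio 0) e) : ip T.Z.X.P.I T.Z.o c (T.rs e) = ip T.Z'.X.P.I T.Z'.o c' e := by
  have o : IsOpen (T.Z.X.τ ⁻¹' Iio 0) := isOpen_Iio.preimage T.Z.X.cont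
  have m : Mp T.Z.X.P.I T.Z'.X.P.I (T.Z.X.τ ⁻¹' Iio 0) univ T.fl :=
    ⟨fun _ hy => (T.fl.ld hy).contMDiffAt, mapsTo_univ _ _⟩
  rw [rs, ← (cs_psh T.fl.symm subset_rfl he).ip_coh T.Z.ori ((hC.cl _ _ _ k').sm.pm m)
    ((hC.cl _ _ _ k).sm.mono (subset_univ _)) (hC.pb _ _ _ _ _ _ _ _ o (T.dom ▸ h.1) k k'),
    ip_psh T.fl.symm T.pf.symm he]
  exact he.ip_congr fun x hx => (pm_via T.fl.symm T.fl hx hx (fun _ => T.fl.apply_symm) c').trans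
    (pm_of_eventually_id (.of_forall fun _ => rfl) c')

end Two

/-- the forms of the argument -/
structure Dt (d : N.W.L) (c₀ : N.W.Fm) (β₁ : ℝ) (d₂ : (S.cob (X.c1 eg)).L) where
  cv : Cur d c₀
  β₂ : ℝ
  h1 : N.α < β₂
  h2 : β₂ < β₁
  h3 : β₁ < N.β
  η : T.Z'.Fm
  L : T.Z'.Fm
  E : T.Z'.Fm
  G : T.Z'.Fm
  e : T.Z'.Fm
  cη : Cs T.Z'.X.P.I 2 (T.Z'.X.τ ⁻¹' Iic (-3 / 4)) η
  pη : ∀ p, N.W.X.τ p < β₁ → pm N.W.X.P.I T.Z'.X.P.I T.J'.l η p = c₀ p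
  cL : Cs T.Z'.X.P.I 2 (T.Z'.X.τ ⁻¹' Iic N.α) L
  cE : Cs T.Z'.X.P.I 2 univ E
  cG : Cs T.Z'.X.P.I 2 (T.Z'.X.τ ⁻¹' Ioi (-3 / 4)) G
  ce : Cs T.Z'.X.P.I 2 (T.Z'.X.τ ⁻¹' Iio 0) e
  ne : ip T.Z'.X.P.I T.Z'.o e E ≠ 0
  q : ℝ
  iso : ∀ z, Cs T.Z'.X.P.I 2 (T.Z'.X.τ ⁻¹' Ioi N.α) z →
    T.Z'.sq z = q * ip T.Z'.X.P.I T.Z'.o z E ^ 2 ∧ ip T.Z'.X.P.I T.Z'.o z E = ip T.Z'.X.P.I T.Z'.o z G
  ρ : W4.Dif T.Z' T.Z'
  q' : ℝ
  nq : q' ≠ 0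
  fix : ∀ p, T.Z'.X.τ p ∉ Ioo (-2) 1 → ρ.φ p = p
  rfl : ∀ c x, Cl T.Z'.X.P.I 2 univ c → Cs T.Z'.X.P.I 2 univ x →
    ip T.Z'.X.P.I T.Z'.o (pm T.Z'.X.P.I T.Z'.X.P.I ρ.φ c) x =
      ip T.Z'.X.P.I T.Z'.o c x + q' * (ip T.Z'.X.P.I T.Z'.o c E * ip T.Z'.X.P.I T.Z'.o x E)
  σ : ℝ
  lbl : ∀ D D' c, T.g.Rs D' D d₂ → Cur D' c → ip T.Z'.X.P.I T.Z'.o c G = σ
  nμ : ip T.Z'.X.P.I T.Z'.o η E + σ ≠ 0
  big : |q| * ((|ip T.Z'.X.P.I T.Z'.o η E| + |σ|) * (2 + 2 * |q' * T.Z'.sq E|)) ^ 2 < T.Z'.sq L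

namespace Dt

variable {T} {d : N.W.L} {c₀ : N.W.Fm} {β₁ : ℝ} {d₂ : (S.cob (X.c1 eg)).L} (A : Dt T d c₀ β₁ d₂)

theorem uη : Cs T.Z'.X.P.I 2 univ A.η := A.cη.mono (subset_univ _)

theorem uL : Cs T.Z'.X.P.I 2 univ A.L := A.cL.mono (subset_univ _)

theorem cs : Cs T.Z'.X.P.I 2 (T.Z'.X.τ ⁻¹' Iic (-3 / 4)) (A.η + A.L) :=
  A.cη.add (A.cL.mono (preimage_mono (Iic_subset_Iic.2 (by linarith [N.lt, N.hb]))))

theorem right {z} (h : Cs T.Z'.X.P.I 2 univ z)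
    (k : ∀ p, N.W.X.τ p < A.β₂ → pm N.W.X.P.I T.Z'.X.P.I T.J'.l z p = 0) :
    Cs T.Z'.X.P.I 2 (T.Z'.X.τ ⁻¹' Ioi N.α) z := cs_right T.J'.l A.h1 (A.h2.trans A.h3).le h k

/-- the margin -/
theorem mar {z} (h : Cs T.Z'.X.P.I 2 (T.Z'.X.τ ⁻¹' Ioi N.α) z) (k : |ip T.Z'.X.P.I T.Z'.o z A.E| ≤
    (|ip T.Z'.X.P.I T.Z'.o A.η A.E| + |A.σ|) * (2 + 2 * |A.q' * T.Z'.sq A.E|)) : 0 < T.Z'.sq (A.L + z) := by
  rw [sq_disj A.cL h (disj _ _), (A.iso z h).1]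
  have := mul_le_mul_of_nonneg_left (pow_le_pow_left₀ (abs_nonneg _) k 2) (abs_nonneg A.q)
  rw [sq_abs] at this
  nlinarith [A.big, neg_abs_le A.q, sq_nonneg (ip T.Z'.X.P.I T.Z'.o z A.E)]

variable (hC : CnStmt)
include hC

theorem ps {D : T.Z.L} (h : Pb T.J.l (N.W.X.τ ⁻¹' Iio β₁) D d) : T.Z.Ps D (T.rs (A.η + A.L)) := by
  obtain ⟨c, k, m, e⟩ := hC.nf _ _ _ _ _ _ _ (-3 / 4) T.J.l T.ko T.lo A.h2 A.h3.le
    (by linarith [A.h3, N.hb]) (by norm_num) D d c₀ h A.cv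
  have s := sub0
  have m' := A.cη.sub' (cs_psh T.fl s m)
  have r := A.right (m'.mono (subset_univ _)) fun p hp => by
    have hp' := hp.trans A.h2
    rw [pm_sub, Pi.sub_apply, A.pη p hp', ← T.pm_l (hp'.trans A.h3),
      pm_congr_right (pm_psh T.fl.φ (T.fl.mem_src (T.lt0 (hp'.trans A.h3))) c), e p hp, sub_self]
  refine ⟨c, m.mono (subset_univ _), k, ?_⟩
  rw [show T.rs (A.η + A.L) - c = psh T.fl.symm.φ (A.η + A.L - psh T.fl.φ c) from funext fun x => ?_,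
    sq_psh _ T.pf.symm ((A.cs.sub' (cs_psh T.fl s m)).mono (preimage_mono s)), add_comm A.η, add_sub_assoc]
  · refine A.mar r ?_
    rw [(A.iso _ r).2, m'.ip_disj A.cG (disj _ _), abs_zero]
    positivity
  · by_cases hx : T.Z.X.τ x ∈ Iio 0
    · rw [psh_symm T.fl hx, pm_sub, Pi.sub_apply, Pi.sub_apply, Two.rs, psh_symm T.fl hx,
        pm_psh T.fl.φ (T.fl.mem_src hx)]
    · have k : x ∉ T.fl.symm.φ.target := T.fl.symm.tgt ▸ hx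
      rw [Pi.sub_apply, m.eq_zero fun a => hx (s a), sub_zero]
      exact (indicator_of_notMem k _).trans (indicator_of_notMem k _).symm

variable (hG : GlStmt) (sub : Subsingleton (S.ob (X.ι ib)).L) {H H' : Type} {ξ : T.Z.L → H} {ξ' : T.Z'.L → H'}
  {F : (S.cob (X.c1 eg)).L → H → H'}
  (nat : ∀ (φ : W4.Dif T.Z' T.Z') D D', Ag atTop (φ.φ ∘ T.ko') T.ko' → Pb φ.φ univ D' D →
    T.Z'.Seg D (A.η + A.L) (pm T.Z'.X.P.I T.Z'.X.P.I φ.φ (A.η + A.L)) → ξ' D = ξ' D')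
  (cmp : ∀ D' D d', T.g.Rs D' D d' → T.Z.Ps D (T.rs (A.η + A.L)) → T.Z'.Ps D' (A.η + A.L) → ξ' D' = F d' (ξ D))
include hG sub nat cmp

theorem step {D : T.Z.L} (h : Pb T.J.l (N.W.X.τ ⁻¹' Iio β₁) D d) : ∃ D₁ d', Pb T.J.l (N.W.X.τ ⁻¹' Iio β₁) D₁ d ∧
    F d₂ (ξ D) = F d' (ξ D₁) ∧ ∀ c c₁, Cur D c → Cur D₁ c₁ → ip T.Z.X.P.I T.Z.o c₁ (T.rs A.e) =
      ip T.Z.X.P.I T.Z.o c (T.rs A.e) +
        A.q' * ((ip T.Z'.X.P.I T.Z'.o A.η A.E + A.σ) * ip T.Z'.X.P.I T.Z'.o A.e A.E) := by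
  obtain ⟨D', r⟩ := (hG _ _ _ _ _ _ _ _ T.g).2 sub D d₂
  have u := Two.up A.h3.le r h
  obtain ⟨c, k, m, e⟩ := hC.nf _ _ _ _ _ _ _ 1 T.J'.l T.ko' T.lo' A.h2 A.h3.le
    (by linarith [A.h3, N.hb]) one_pos D' d c₀ u A.cv
  replace m := m.mono (subset_univ _)
  have z := A.right (A.uη.sub' m) fun p hp => by
    rw [pm_sub, Pi.sub_apply, A.pη p (hp.trans A.h2), e p hp, sub_self]
  have zE : ip T.Z'.X.P.I T.Z'.o (A.η - c) A.E = -A.σ := by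
    rw [(A.iso _ z).2, ip_sub A.uη m (A.cG.mono (subset_univ _)), A.lbl _ _ _ r k,
      A.cη.ip_disj A.cG (disj _ _), zero_sub]
  have cE : ip T.Z'.X.P.I T.Z'.o c A.E = ip T.Z'.X.P.I T.Z'.o A.η A.E + A.σ := by
    rw [ip_sub A.uη m A.cE] at zE
    linarith
  have n1 := abs_nonneg (ip T.Z'.X.P.I T.Z'.o A.η A.E)
  have n2 := abs_nonneg A.σ
  have n3 := abs_nonneg (A.q' * T.Z'.sq A.E)
  have p' : T.Z'.Ps D' (A.η + A.L) := ⟨c, m, k, by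
    rw [add_comm A.η, add_sub_assoc]
    exact A.mar z (by rw [zE, abs_neg]; nlinarith)⟩
  obtain ⟨D'', b⟩ : ∃ D'' : T.Z'.L, Pb A.ρ.φ univ D' D'' := ⟨_, pb_pull fun y _ => A.ρ.φ.isLocalDiffeomorph y⟩
  have t : ∀ p, N.W.X.τ p < N.β → (A.ρ.φ : T.Z'.M → T.Z'.M) =ᶠ[𝓝 (T.J'.l p)] id := fun p hp =>
    ev_id A.fix ((T.J'.l.mem hp).trans_le N.hb)
  have w : ∀ (a : T.Z'.Fm) p, N.W.X.τ p < N.β → pm N.W.X.P.I T.Z'.X.P.I T.J'.l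
      (pm T.Z'.X.P.I T.Z'.X.P.I A.ρ.φ a) p = pm N.W.X.P.I T.Z'.X.P.I T.J'.l a p := fun a p hp =>
    pm_congr_right (pm_of_eventually_id (t p hp) a)
  have k' := hC.dif _ _ _ _ _ _ b k
  have sg : T.Z'.Seg D'' (A.η + A.L) (pm T.Z'.X.P.I T.Z'.X.P.I A.ρ.φ (A.η + A.L)) := fun s hs => by
    refine ⟨_, cs_pm A.ρ m, k', ?_⟩
    have a1 := A.uη.smul (1 - s)
    have a2 := (cs_pm A.ρ A.uη).smul s
    rw [pm_add, pm_fix A.ρ A.fix (A.cL.mono fun _ a => a.trans_lt (N.lt.trans_le N.hb)),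
      show ∀ x y c' : T.Z'.Fm, (1 - s) • (x + A.L) + s • (y + A.L) - c' = A.L + ((1 - s) • x + s • y - c') from
        fun x y c' => by module]
    refine A.mar (A.right ((a1.add a2).sub' (cs_pm A.ρ m)) fun p hp => ?_) ?_
    · have hp' := hp.trans A.h2
      rw [pm_sub, pm_add, pm_smul, pm_smul, Pi.sub_apply, Pi.add_apply, Pi.smul_apply, Pi.smul_apply,
        w _ p (hp'.trans A.h3), w _ p (hp'.trans A.h3), A.pη p hp', e p hp]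
      module
    · rw [ip_sub (a1.add a2) (cs_pm A.ρ m) A.cE, ip_add a1 a2 A.cE, ip_smul, ip_smul, A.rfl _ _ A.uη.cl A.cE,
        A.rfl _ _ m.cl A.cE, cE]
      generalize ip T.Z'.X.P.I T.Z'.o A.η A.E = x at *
      have i : (1 - s) * x + s * (x + A.q' * (x * T.Z'.sq A.E)) - (x + A.σ + A.q' * ((x + A.σ) * T.Z'.sq A.E)) =
          -(A.σ + ((1 - s) * x + A.σ) * (A.q' * T.Z'.sq A.E)) := by ring
      have j : |(1 - s) * x + A.σ| ≤ |x| + |A.σ| := (abs_add_le _ _).trans (by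
        rw [abs_mul, abs_of_nonneg (sub_nonneg.2 hs.2)]; nlinarith [hs.1])
      rw [i, abs_neg]
      refine (abs_add_le _ _).trans ?_
      rw [abs_mul ((1 - s) * x + A.σ)]
      nlinarith [mul_le_mul_of_nonneg_right j n3]
  obtain ⟨D₁, d', r'⟩ := (hG _ _ _ _ _ _ _ _ T.g).1 D''
  have h₁ := Two.down A.h3.le r' (pb_cancel b (pb_congr u fun p hp =>
    (T.J'.l.ld (hp.trans A.h3)).contMDiffAt.continuousAt.tendsto.eventually (t p (hp.trans A.h3)))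
    (fun _ hp => T.J'.l.ld (hp.trans A.h3)) (mapsTo_univ _ _))
  refine ⟨D₁, d', h₁, ?_, fun a a₁ ha ha₁ => ?_⟩
  · rw [← cmp _ _ _ r (A.ps hC h) p', ← cmp _ _ _ r' (A.ps hC h₁) (by simpa using sg 0 (by simp))]
    exact (nat A.ρ _ _ (ag_of_eq ((eventually_gt_atTop 1).mono fun s hs y => A.fix _ fun a => a.2.not_gt
      (hs.trans_eq (T.ko'.tm (y, s) (one_pos.trans hs)).symm))) b sg).symm
  · rw [Two.height hC r ha k A.ce, Two.height hC r' ha₁ k' A.ce, A.rfl _ _ m.cl (A.ce.mono (subset_univ _)), cE]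

theorem core [Zero H] [Zero H'] (F0 : ∀ d', F d' 0 = 0)
    (bnd : ∀ e, Cs T.Z.X.P.I 2 univ e → ∃ R : ℝ, ∀ D c, T.Z.Ps D (T.rs (A.η + A.L)) → ξ D ≠ 0 → Cur D c →
      |ip T.Z.X.P.I T.Z.o c e| ≤ R) {D : T.Z.L} (h : Pb T.J.l (N.W.X.τ ⁻¹' Iio β₁) D d) (h0 : ξ D ≠ 0) :
    ∃ x, x ≠ 0 ∧ F d₂ x = 0 := by
  by_contra! k
  obtain ⟨R, hR⟩ := bnd _ ((cs_psh T.fl.symm subset_rfl A.ce).mono (subset_univ _))
  obtain ⟨c, -, hc, -⟩ := A.ps hC h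
  have nr := mul_ne_zero A.nq (mul_ne_zero A.nμ A.ne)
  generalize e : A.q' * _ = r at nr
  have i : ∀ n : ℕ, ∃ D₁ c₁, Pb T.J.l (N.W.X.τ ⁻¹' Iio β₁) D₁ d ∧ ξ D₁ ≠ 0 ∧ Cur D₁ c₁ ∧
      ip T.Z.X.P.I T.Z.o c₁ (T.rs A.e) = ip T.Z.X.P.I T.Z.o c (T.rs A.e) + n * r := fun n => by
    induction n with
    | zero => exact ⟨D, c, h, h0, hc, by simp⟩
    | succ n ih =>
      obtain ⟨D₁, c₁, a1, a2, a3, a4⟩ := ih
      obtain ⟨D₂, d', b1, b2, b3⟩ := A.step hC hG sub nat cmp a1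
      obtain ⟨c₂, -, b4, -⟩ := A.ps hC b1
      refine ⟨D₂, c₂, b1, fun z => k _ a2 (by rw [b2, z, F0]), b4, ?_⟩
      rw [b3 _ _ a3 b4, a4, e]
      push_cast
      ring
  obtain ⟨n, hn⟩ := exists_nat_gt ((R + |ip T.Z.X.P.I T.Z.o c (T.rs A.e)|) / |r|)
  obtain ⟨D₁, c₁, a1, a2, a3, a4⟩ := i n
  have j := hR _ _ (A.ps hC a1) a2 a3
  rw [div_lt_iff₀ (abs_pos.2 nr), ← Nat.abs_cast (R := ℝ) n, ← abs_mul] at hn
  have := abs_sub (ip T.Z.X.P.I T.Z.o c₁ (T.rs A.e)) (ip T.Z.X.P.I T.Z.o c (T.rs A.e))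
  rw [a4, add_sub_cancel_left, ← a4] at this
  exact (hn.trans_le this).not_ge (add_le_add_left j _)

end Dt

end Crest.Agent.X212.Nv5
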