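import Crest.Agent.X212.Sw87.Base
import Crest.Agent.X212.Dr59.Tex
import Crest.Agent.X212.H7.Defs
import Crest.Agent.X212.Sep15.QD
import Crest.Agent.X212.Cab39.Zero

/-!
# Row 212, layer S (helper5): non-vanishing, statements

`Nk Y` : a closed symplectic manifold with the neck `Y`.  `Jc` : its left part followed by a rod manifold.
`Two` : the caps of the words `a | b` and `a | b | e`.  `IsE`, `IsG` : the duals of the sphere over `b` and of the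
generator of the handle `b | e`.
-/

set_option autoImplicit false
set_option linter.unusedSectionVars false

open Set Filter Topology Function Module
open scoped ContDiff Manifold
open Crest.Agent.R208 Crest.Agent.R208.F
open Crest.Agent.X212.Bor5.T
open Crest.Agent.X212.Dr59 (Cs Cl Sm Dg ip pm dM psh WF)
open Crest.Agent.X212.Int54 (Ori SameOn)
open Crest.Agent.X212.Cyl58 (TP TIso)
open Crest.Agent.X212.Orx52 (TPos pr oR oX)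
open Crest.Agent.X212.Rod53 (Z2 Loc IsWd PM)
open Crest.Agent.X212.Lab56 (Ref Good)
open Crest.Agent.X212.Line51 (Ang ang)
open Crest.Agent.X212.Rw22 (Vx vK Rod NVH)
open Crest.Agent.X212.Sw87 (tK sl10 sl11)
open Crest.Agent.X212.M (Mf)
open Crest.Agent.X212.Win22 (Hf)

noncomputable section

namespace Crest.Agent.X212.Nv5

/-! ### objects -/

/-- a closed symplectic manifold with the neck `Y` over `(α, β)` -/
structure Nk (Y : O3) : Type 1 where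
  W : W4
  cpt : CompactSpace W.M
  α : ℝ
  β : ℝ
  lt : α < β
  hb : β ≤ -2
  k : TIso Y.cyl W.X (Ioo α β)
  pk : TPos k (pr Y.o oR) W.o
  w : W.Fm
  cl : Cl W.X.P.I 2 univ w
  sy : SameOn (w * w) W.o univ
  vL : W.Fm
  vR : W.Fm
  cL : Cs W.X.P.I 2 (W.X.τ ⁻¹' Iic α) vL
  cR : Cs W.X.P.I 2 (W.X.τ ⁻¹' Ici β) vR
  pL : 0 < W.sq vL
  pR : 0 < W.sq vR
  con : IsPreconnected (W.X.τ ⁻¹' Iio β)
  /-- closed two-forms extend over the left part -/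
  ext : ∀ b, Cl Y.Y.I 2 univ b → ∃ u : W.Fm, Cl W.X.P.I 2 (W.X.τ ⁻¹' Iio β) u ∧
    ∀ p : Y.cyl.P.M, p.2 ∈ Ioo α β → pm Y.cyl.P.I W.X.P.I k u p = pm Y.cyl.P.I Y.Y.I (fun q : Y.cyl.P.M => q.1) b p

/-- the word `a | b` -/
def wC (n : ℤ) : Z2 := w1 (1, 0) (1, 1) (n + 1)

/-- the word `a | b | e` -/
def wZ (n : ℤ) : Z2 := w2 (1, 0) (1, 1) (0, 1) (n + 1)

theorem isC : IsWd wC := by
  refine ⟨fun n => ⟨(0, 1), ?_⟩, fun n => ?_⟩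
  · unfold wC w1; split_ifs <;> exact .inl rfl
  · unfold wC w1; split_ifs
    exacts [.inl (PM.refl _), .inr (.inl rfl), by omega, .inl (PM.refl _)]

theorem isZ : IsWd wZ := by
  refine ⟨fun n => ⟨(1, 1) - wZ n + if n + 1 = 0 then (0, 1) else 0, ?_⟩, fun n => ?_⟩
  · unfold wZ w2; split_ifs
    exacts [by omega, .inl rfl, .inl rfl, .inr rfl]
  · unfold wZ w2; split_ifs
    exacts [.inl (PM.refl _), .inr (.inl rfl), by omega, by omega, by omega, .inr (.inl rfl), by omega, by omega,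
      .inl (PM.refl _)]

/-- the slope `1` -/
abbrev ib : Vx := ⟨(1, 1), sl11⟩

/-- the sphere -/
abbrev ie : Vx := ⟨(1, 0), sl10⟩

theorem eg : Eg univ vK ib ie := ⟨trivial, trivial, .inl rfl⟩

variable {τ : Tub} {Y : O3}

/-- `Z` is the left part of `N.W` followed by the rod manifold of `v` -/
structure Jc (f : Fo τ Y (1, 0)) (N : Nk Y) {v : ℝ → Z2} (hv : Loc v) (Z : W4) where
  l : TIso N.W.X Z.X (Iio N.β)
  r : TIso (τ.T.tp hv) Z.X (Ioi N.α)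
  pl : TPos l N.W.o Z.o
  pr : TPos r (oX hv τ.ori) Z.o
  ov : ∀ y, ∀ t ∈ Ioo N.α N.β, l (N.k (y, t)) = r (f.cy v (y, t))

/-- the two caps; the second one is the first one followed by the handle `b | e` -/
structure Two {S : Scene} (X : Ex S τ univ vK) (f : Fo τ Y (1, 0)) (N : Nk Y) : Type 1 where
  Z : W4
  Z' : W4
  J : Jc f N isC.loc Z
  J' : Jc f N isZ.loc Z'
  lo : ∃ s, ∀ x, s ≤ Z.X.τ x
  lo' : ∃ s, ∀ x, s ≤ Z'.X.τ x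
  ko : TIso (S.ob (X.ι ib)).cyl Z.X (Ioi (-1))
  ko' : TIso (S.ob (X.ι ie)).cyl Z'.X (Ioi 0)
  po : TPos ko (pr (S.ob (X.ι ib)).o oR) Z.o
  po' : TPos ko' (pr (S.ob (X.ι ie)).o oR) Z'.o
  eo : Ag atTop (J.r ∘ (X.f ib trivial).cy _) ko
  g : Gl Z (S.cob (X.c1 eg)).toW4 Z' ko (S.cob (X.c1 eg)).ki
  d1 : g.δ₁ = 0
  d2 : g.δ₂ = 0
  ga : g.α = -3 / 4
  gb : g.β = 0
  gl : ∀ p, N.W.X.τ p < N.β → g.fl (J.l p) = J'.l p
  gr : ∀ p : τ.X (Rod53.wd (w1 (1, 1) (0, 1))), -3 / 4 < τ.T.time _ p →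
    g.fr ((X.r1 eg).K p) = J'.r (τ.T.chgPD _ _ p)
  go : Ag atTop (g.fr ∘ (S.cob (X.c1 eg)).ko) ko'

/-- the characters of the sphere over the rod `b` -/
def mE (j : ℤ) : ℝ × ℝ := if j = -1 then (0, 1) else if j = 0 then (1, 0) else 0

/-- the characters of the generator of the handle `b | e` -/
def mG (j : ℤ) : ℝ × ℝ := if j < 0 then (0, 1) else if j = 0 then (1, 0) else 0

/-- its multiples of the angle -/
def nG (j : ℤ) : ℝ := if j < 0 then 1 else 0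

section forms

variable {f : Fo τ Y (1, 0)} {N : Nk Y} {Z : W4} (J : Jc f N isZ.loc Z)

/-- the dual of the sphere over the rod `b` -/
def IsE (E : Z.Fm) : Prop := ∃ e, WF τ.T wZ (1 / 10) 0 mE (fun _ => 0) e ∧ E = psh J.r.φ e

/-- the dual of the generator of the handle `b | e` -/
def IsG (ϑ : τ.N.M → Circle) (G : Z.Fm) : Prop := ∃ e, WF τ.T wZ (1 / 10) (ang τ.N.I ϑ) mG nG e ∧ G = psh J.r.φ e

end forms

/-- a closed manifold of the caps layer as an object -/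
abbrev o3 (Y : Sep15.CM 3) [ConnectedSpace Y] {o : Bb31.Fm 3 Y} (ho : Ori (𝓡 3) o) : O3 where
  Y := Mf.ofB 3 (𝓡 3) Y (by simp)
  cpt := Y.cp
  con := ‹_›
  o := o
  ori := ho

/-! ### leaves -/

/-- NV-NK -/
def NkStmt : Prop := ∀ (Y : Sep15.CM 3) [ConnectedSpace Y] (o : Bb31.Fm 3 Y) (ho : Ori (𝓡 3) o) (Φ : Y → Circle),
  (∀ o', Ori (𝓡 3) o' → H7.Out Sep15.Q Y o' Φ) → Nonempty (Nk (o3 Y ho))

/-- the zero filling of the cable (`St29.Yc`) -/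
abbrev Yc (k : Ext52.KD) : Sep15.CM 3 := { M := Cab39.C0 k.toTube }

/-- NV-FO -/
def FoStmt : Prop := ∀ k : Ext52.KD, ∃ (_ : ConnectedSpace (Yc k)) (o : Bb31.Fm 3 (Yc k))
  (ho : Ori (𝓡 3) o), Nonempty (Fo (tK (Cab39.cable k)) (o3 _ ho) (1, 0))

/-- NV-TWO -/
def TwoStmt : Prop := ∀ (S : Scene) (τ : Tub) [ConnectedSpace τ.N.M] (X : Ex S τ univ vK) (Y : O3)
  (f : Fo τ Y (1, 0)) (N : Nk Y), Nonempty (Two X f N)

/-- NV-GL: classes restrict to the pieces, and glue along a neck with one class -/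
def GlStmt : Prop := ∀ (B : O3) (W₁ W₂ W : W4) (b a : ℝ) (ko : TIso B.cyl W₁.X (Ioi b))
  (ki : TIso B.cyl W₂.X (Iio a)) (g : Gl W₁ W₂ W ko ki),
  (∀ d, ∃ d₁ d₂, g.Rs d d₁ d₂) ∧ (Subsingleton B.L → ∀ d₁ d₂, ∃ d, g.Rs d d₁ d₂)

/-- NV-CN: curvature forms -/
structure CnStmt : Prop where
  cl : ∀ (W : W4) (d : W.L) c, Cur d c → Cl W.X.P.I 2 univ c
  pb : ∀ (W W' : W4) (φ : W.M → W'.M) (U : Set W.M) (d : W.L) (d' : W'.L) c c', IsOpen U → Pb φ U d' d →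
    Cur d c → Cur d' c' → Dr59.Ex W.X.P.I U (pm W.X.P.I W'.X.P.I φ c' - c)
  dif : ∀ (W W' : W4) (φ : W.M → W'.M) (d : W.L) (d' : W'.L) c', Pb φ univ d' d → Cur d' c' →
    Cur d (pm W.X.P.I W'.X.P.I φ c')
  /-- normal form: given on the left, zero on the end -/
  nf : ∀ (W Z : W4) (B : Q3) (β β₁ β₂ b x : ℝ) (l : TIso W.X Z.X (Iio β)) (_ : TIso B.cyl Z.X (Ioi b)),
    (∃ s, ∀ p, s ≤ Z.X.τ p) → β₂ < β₁ → β₁ ≤ β → β₁ ≤ b → b < x → ∀ (D : Z.L) (d : W.L) c₀,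
    Pb l (W.X.τ ⁻¹' Iio β₁) D d → Cur d c₀ → ∃ c, Cur D c ∧ Cs Z.X.P.I 2 (Z.X.τ ⁻¹' Iic x) c ∧
      ∀ p, W.X.τ p < β₂ → pm W.X.P.I Z.X.P.I l c p = c₀ p

/-- NV-EXT: closed forms of the left part extend, with support left of the second vertex -/
def ExtStmt : Prop := ∀ (τ : Tub) (Y : O3) (f : Fo τ Y (1, 0)) (N : Nk Y) (Z : W4) (J : Jc f N isZ.loc Z)
  (B : Q3), Fo τ B.toO3 (1, 1) → ∀ c₀ β₁, Cl N.W.X.P.I 2 univ c₀ → β₁ < N.β →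
  ∃ η, Cs Z.X.P.I 2 (Z.X.τ ⁻¹' Iic (-3 / 4)) η ∧ ∀ p, N.W.X.τ p < β₁ → pm N.W.X.P.I Z.X.P.I J.l η p = c₀ p

/-- NV-TEST: a closed surface left of the second vertex that meets the sphere -/
def TestStmt : Prop := ∀ (τ : Tub) (Y : O3) (f : Fo τ Y (1, 0)) (N : Nk Y) (Z : W4) (J : Jc f N isZ.loc Z) E,
  IsE J E → ∃ e, Cs Z.X.P.I 2 (Z.X.τ ⁻¹' Iio 0) e ∧ ip Z.X.P.I Z.o e E ≠ 0

/-- NV-ISO: compactly supported classes of the rod part are multiples of the sphere, up to the radical -/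
def IsoStmt : Prop := ∀ (τ : Tub) (Y : O3) (f : Fo τ Y (1, 0)) (N : Nk Y) (Z : W4) (J : Jc f N isZ.loc Z) ϑ E G,
  Ang τ.T ϑ (0, 1) → IsE J E → IsG J ϑ G → ∃ q : ℝ, ∀ z, Cs Z.X.P.I 2 (Z.X.τ ⁻¹' Ioi N.α) z →
    Z.sq z = q * ip Z.X.P.I Z.o z E ^ 2 ∧ ip Z.X.P.I Z.o z E = ip Z.X.P.I Z.o z G

/-- NV-RFL: the reflection in the sphere -/
def RflStmt : Prop := ∀ (τ : Tub) (Y : O3) (f : Fo τ Y (1, 0)) (N : Nk Y) (Z : W4) (J : Jc f N isZ.loc Z) E,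
  IsE J E → ∃ (ρ : W4.Dif Z Z) (q : ℝ), q ≠ 0 ∧ (∀ p, Z.X.τ p ∉ Ioo (-2) 1 → ρ.φ p = p) ∧
    ∀ c x, Cl Z.X.P.I 2 univ c → Cs Z.X.P.I 2 univ x → ip Z.X.P.I Z.o (pm Z.X.P.I Z.X.P.I ρ.φ c) x =
      ip Z.X.P.I Z.o c x + q * (ip Z.X.P.I Z.o c E * ip Z.X.P.I Z.o x E)

/-- NV-LBL: the value of a class on the generator -/
def LblStmt : Prop := ∀ (S : Scene) (τ : Tub) (X : Ex S τ univ vK) (Y : O3) (f : Fo τ Y (1, 0)) (N : Nk Y)
  (T : Two X f N) ϑ G {n m : ℕ} (R : Ref τ.T (Fin n) (Fin m)), Ang τ.T ϑ (0, 1) → IsG T.J' ϑ G →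
  ∃ s : ℝ, s ≠ 0 ∧ ∀ D D' d k k' c, T.g.Rs D' D d → X.L1 R eg d k k' → Cur D' c →
    ip T.Z'.X.P.I T.Z'.o c G = s * (k - k' : ℤ)

/-- NV-ALG -/
def AlgStmt : Prop := ∀ (L : Vx → Type) (A : ∀ i, Hf (L i)) (ρ : Rod univ vK (0, 1) A),
  (∀ i, i.1.2 = 0 → Rw22.Pure (A i) fun _ => 0) → ∀ m m' x, Even (m + ρ.ε ib) → Even (m' + ρ.ε ie) →
  (m - m' = 1 ∨ m - m' = -1) → x ≠ 0 → ρ.F (ρ.c2 ib ie m m') x = 0 → NVH (A ib)

/-- NON-VANISHING -/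
def NvStmt : Prop := ∀ (Q : Prd) (r : ℝ), Taub Q → ∀ (S : Scene) (τ : Tub) [ConnectedSpace τ.N.M]
  (X : Ex S τ univ vK) (ϑ : τ.N.M → Circle) {n m : ℕ} (R : Ref τ.T (Fin n) (Fin m)) (ε : Vx → ℤ),
  Good τ.T ϑ (0, 1) → τ.σ = -1 → X.Cw R (0, 1) ε → ∀ (Y : O3), Fo τ Y (1, 0) → Nk Y →
  ∃ (γ : S.ι → Type) (_ : ∀ i, Countable (γ i)) (cap : ∀ {i}, γ i → Cp (S.ob i)) (P : Pent (S.caps γ cap) Q r),
    ∀ θ : Th (S.caps γ cap), θ.NV P → (∀ i : Vx, i.1.2 = 0 → Pur (θ.H (X.ι i)) fun _ => 0) → NVH (θ.H (X.ι ib))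

end Crest.Agent.X212.Nv5
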